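import Mathlib

/-!
The abstract perturbation lemma: a positive kernel for the powers of an operator forces norm at most two.
-/

namespace Vale.Agent.P123

open scoped InnerProductSpace
open ContinuousLinearMap

variable {H : Type*} [NormedAddCommGroup H] [InnerProductSpace ℂ H]

/-- The positivity inequality satisfied by the moments of a positive operator kernel. -/
def PosSeq (g : ℕ → H → H → ℝ) : Prop :=
  ∀ (n : ℕ) (u a b : H) (l k : ℝ),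
    0 ≤ l ^ 2 * g 0 u u + 2 * l * (g n a u - k * g (n + 1) b u)
      + g 0 a a - 2 * k * g 1 b a + k ^ 2 * g 0 b b

omit [NormedAddCommGroup H] [InnerProductSpace ℂ H] in
theorem PosSeq.sum {ι : Type*} (s : Finset ι) (g : ι → ℕ → H → H → ℝ)
    (hg : ∀ i ∈ s, PosSeq (g i)) : PosSeq (fun n a u => ∑ i ∈ s, g i n a u) := by
  intro n u a b l k
  have := Finset.sum_nonneg (fun i hi => hg i hi n u a b l k)
  simp only [Finset.sum_add_distrib, Finset.sum_sub_distrib, ← Finset.mul_sum] at this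
  exact this

omit [NormedAddCommGroup H] [InnerProductSpace ℂ H] in
theorem PosSeq.integral (g : ℝ → ℕ → H → H → ℝ)
    (hc : ∀ n a u, ContinuousOn (fun t => g t n a u) (Set.Icc 0 1))
    (hg : ∀ t ∈ Set.Icc (0 : ℝ) 1, PosSeq (g t)) :
    PosSeq (fun n a u => ∫ t in (0 : ℝ)..1, g t n a u) := by
  intro n u a b l k
  have hi : ∀ n a u, IntervalIntegrable (fun t => g t n a u) MeasureTheory.volume 0 1 := by
    intro n a u
    apply ContinuousOn.intervalIntegrable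
    rw [Set.uIcc_of_le zero_le_one]
    exact hc n a u
  have := intervalIntegral.integral_nonneg (μ := MeasureTheory.volume) zero_le_one
    (fun t ht => hg t ht n u a b l k)
  rw [intervalIntegral.integral_add, intervalIntegral.integral_sub, intervalIntegral.integral_add,
    intervalIntegral.integral_add, intervalIntegral.integral_const_mul,
    intervalIntegral.integral_const_mul, intervalIntegral.integral_sub,
    intervalIntegral.integral_const_mul, intervalIntegral.integral_const_mul,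
    intervalIntegral.integral_const_mul] at this
  · exact this
  · exact hi _ _ _
  · exact (hi _ _ _).const_mul _
  · exact (hi _ _ _).const_mul _
  · exact ((hi _ _ _).sub ((hi _ _ _).const_mul _)).const_mul _
  · exact ((hi _ _ _).const_mul _).add (((hi _ _ _).sub ((hi _ _ _).const_mul _)).const_mul _)
  · exact hi _ _ _
  · exact (((hi _ _ _).const_mul _).add
      (((hi _ _ _).sub ((hi _ _ _).const_mul _)).const_mul _)).add (hi _ _ _)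
  · exact (hi _ _ _).const_mul _
  · exact ((((hi _ _ _).const_mul _).add
      (((hi _ _ _).sub ((hi _ _ _).const_mul _)).const_mul _)).add (hi _ _ _)).sub
      ((hi _ _ _).const_mul _)
  · exact (hi _ _ _).const_mul _

theorem posSeq_point (K : H →L[ℂ] H) (hK : ∀ y : H, 0 ≤ (⟪y, K y⟫_ℂ).re) (φ : ℂ) (hφ : ‖φ‖ ≤ 1) :
    PosSeq (fun n a u =>
      ((starRingEnd ℂ φ) ^ n * ⟪a, K u⟫_ℂ + φ ^ n * ⟪u, K a⟫_ℂ).re) := by
  intro n u a b l k
  have h := hK (((l : ℂ) * (starRingEnd ℂ φ) ^ n) • u + a - ((k : ℂ) * φ) • b)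
  have hu := hK u
  have hb := hK b
  have h1 : (φ ^ n * (starRingEnd ℂ φ) ^ n) = ((‖φ‖ ^ (2 * n) : ℝ) : ℂ) := by
    rw [← mul_pow, Complex.mul_conj, Complex.normSq_eq_norm_sq]; push_cast; rw [pow_mul]
  have h2 : (φ * (starRingEnd ℂ φ)) = ((‖φ‖ ^ 2 : ℝ) : ℂ) := by
    rw [Complex.mul_conj, Complex.normSq_eq_norm_sq]
  have h3 : ‖φ‖ ^ (2 * n) ≤ 1 := pow_le_one₀ (norm_nonneg _) hφ
  have h4 : ‖φ‖ ^ 2 ≤ 1 := pow_le_one₀ (norm_nonneg _) hφ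
  have hexp : ⟪((l : ℂ) * (starRingEnd ℂ φ) ^ n) • u + a - ((k : ℂ) * φ) • b,
      K (((l : ℂ) * (starRingEnd ℂ φ) ^ n) • u + a - ((k : ℂ) * φ) • b)⟫_ℂ
      = ((l ^ 2 * ‖φ‖ ^ (2 * n) : ℝ) : ℂ) * ⟪u, K u⟫_ℂ
        + (l : ℂ) * ((starRingEnd ℂ φ) ^ n * ⟪a, K u⟫_ℂ + φ ^ n * ⟪u, K a⟫_ℂ)
        - ((l * k : ℝ) : ℂ) * ((starRingEnd ℂ φ) ^ (n + 1) * ⟪b, K u⟫_ℂ + φ ^ (n + 1) * ⟪u, K b⟫_ℂ)
        + ⟪a, K a⟫_ℂ
        - (k : ℂ) * ((starRingEnd ℂ φ) ^ 1 * ⟪b, K a⟫_ℂ + φ ^ 1 * ⟪a, K b⟫_ℂ)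
        + ((k ^ 2 * ‖φ‖ ^ 2 : ℝ) : ℂ) * ⟪b, K b⟫_ℂ := by
    simp only [map_add, map_sub, map_smul, inner_add_left, inner_add_right, inner_sub_left,
      inner_sub_right, inner_smul_left, inner_smul_right, map_mul, map_pow, Complex.conj_ofReal,
      Complex.conj_conj]
    rw [Complex.ofReal_mul, Complex.ofReal_mul, Complex.ofReal_mul, ← h1, ← h2]
    push_cast
    ring
  rw [hexp] at h
  simp only [Complex.add_re, Complex.sub_re, Complex.re_ofReal_mul] at h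
  simp only [Complex.add_re, pow_zero, one_mul]
  have h5 : l ^ 2 * ‖φ‖ ^ (2 * n) * (⟪u, K u⟫_ℂ).re ≤ l ^ 2 * (⟪u, K u⟫_ℂ).re := by
    have := mul_le_mul_of_nonneg_left h3 (mul_nonneg (sq_nonneg l) hu)
    linarith
  have h6 : k ^ 2 * ‖φ‖ ^ 2 * (⟪b, K b⟫_ℂ).re ≤ k ^ 2 * (⟪b, K b⟫_ℂ).re := by
    have := mul_le_mul_of_nonneg_left h4 (mul_nonneg (sq_nonneg k) hb)
    linarith
  linarith

theorem geom_lower (m : ℕ → ℝ) (M κ c : ℝ) (hκ : 1 < κ) (hM : ∀ n, |m n| ≤ M)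
    (hrec : ∀ n, m (n + 1) ≤ κ * m n + c) : 0 ≤ (κ - 1) * m 1 + c := by
  by_contra hneg
  push Not at hneg
  have hk1 : 0 < κ - 1 := by linarith
  set y : ℕ → ℝ := fun n => (κ - 1) * m n + c with hy
  have hyrec : ∀ n, y (n + 1) ≤ κ * y n := by
    intro n
    have := hrec n
    simp only [hy]
    nlinarith
  have hyn : ∀ n, y (n + 1) ≤ κ ^ n * y 1 := by
    intro n
    induction n with
    | zero => simp
    | succ n ih =>
      have h1 := hyrec (n + 1)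
      have : κ * y (n + 1) ≤ κ * (κ ^ n * y 1) := mul_le_mul_of_nonneg_left ih (by linarith)
      calc y (n + 1 + 1) ≤ κ * y (n + 1) := h1
        _ ≤ κ * (κ ^ n * y 1) := this
        _ = κ ^ (n + 1) * y 1 := by ring
  have hy1 : y 1 < 0 := hneg
  obtain ⟨n, hn⟩ := pow_unbounded_of_one_lt (((κ - 1) * M + |c|) / (-y 1)) hκ
  have h2 : (κ - 1) * M + |c| < κ ^ n * (-y 1) := by
    rwa [div_lt_iff₀ (by linarith)] at hn
  have h3 := hyn n
  have h4 : -M ≤ m (n + 1) := (abs_le.mp (hM (n + 1))).1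
  have h5 : -|c| ≤ c := neg_abs_le c
  have h6 : y (n + 1) = (κ - 1) * m (n + 1) + c := rfl
  nlinarith

theorem defect_bound [CompleteSpace H] (T : H →L[ℂ] H) (x : H) (hx : ‖x‖ = 1) (η : ℝ)
    (hη : 0 ≤ η) (hTx : ‖T‖ ^ 2 - η ^ 2 ≤ ‖T x‖ ^ 2) :
    ‖adjoint T (T x) - ((‖T‖ ^ 2 : ℝ) : ℂ) • x‖ ≤ ‖T‖ * η := by
  set κ := ‖T‖ with hκ
  have hκ0 : 0 ≤ κ := norm_nonneg _
  have h1 : ‖adjoint T (T x) - ((κ ^ 2 : ℝ) : ℂ) • x‖ ^ 2
      = ‖adjoint T (T x)‖ ^ 2 - 2 * (κ ^ 2 * ‖T x‖ ^ 2) + κ ^ 4 := by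
    rw [@norm_sub_sq ℂ, inner_smul_right, adjoint_inner_left, inner_self_eq_norm_sq_to_K,
      norm_smul, hx]
    simp [← Complex.ofReal_pow]
    ring
  have h2 : ‖adjoint T (T x)‖ ≤ κ * ‖T x‖ := by
    have := le_opNorm (adjoint T) (T x)
    rwa [LinearIsometryEquiv.norm_map] at this
  have h3 : ‖adjoint T (T x)‖ ^ 2 ≤ (κ * ‖T x‖) ^ 2 :=
    pow_le_pow_left₀ (norm_nonneg _) h2 2
  have h4 : ‖adjoint T (T x) - ((κ ^ 2 : ℝ) : ℂ) • x‖ ^ 2 ≤ (κ * η) ^ 2 := by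
    nlinarith [sq_nonneg κ]
  exact abs_le_of_sq_le_sq' h4 (by positivity) |>.2

theorem real_combine (κ r M η t D : ℝ) (m : ℕ → ℝ) (hκ : 2 < κ) (hr : 0 < r)
    (hmM : ∀ n, |m n| ≤ M) (ht : κ ^ 2 - η ^ 2 ≤ t)
    (hD : D = (1 - κ) * r * t - κ * m 1 + κ ^ 2 * r) (hD0 : 0 ≤ D)
    (h7 : ∀ n, 0 ≤ (κ - 1) * (κ ^ 2 * m n + κ * η * M - κ * m (n + 1)) + D) :
    r * κ ^ 2 * (κ - 2) * (κ - 1) ^ 2 ≤ (κ - 1) * (κ * η * M) + r * (κ - 1) ^ 3 * η ^ 2 := by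
  have hk1 : 0 < κ - 1 := by linarith
  have hκ0 : 0 < κ := by linarith
  have hrec : ∀ n, m (n + 1) ≤ κ * m n + (κ * η * M + D / (κ - 1)) / κ := by
    intro n
    have h8 : κ * m (n + 1) ≤ κ ^ 2 * m n + κ * η * M + D / (κ - 1) := by
      have : 0 ≤ (κ ^ 2 * m n + κ * η * M - κ * m (n + 1)) + D / (κ - 1) := by
        have h9 : (κ ^ 2 * m n + κ * η * M - κ * m (n + 1)) + D / (κ - 1)
            = ((κ - 1) * (κ ^ 2 * m n + κ * η * M - κ * m (n + 1)) + D) / (κ - 1) := by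
          field_simp
        rw [h9]; exact div_nonneg (h7 n) hk1.le
      linarith
    have h10 : κ * m n + (κ * η * M + D / (κ - 1)) / κ
        = (κ ^ 2 * m n + κ * η * M + D / (κ - 1)) / κ := by
      field_simp; ring
    rw [h10, le_div_iff₀ hκ0]
    linarith
  have hg := geom_lower m M κ _ (by linarith) hmM hrec
  have hg2 : 0 ≤ κ * (κ - 1) ^ 2 * m 1 + (κ - 1) * (κ * η * M) + D := by
    have h9 : κ * (κ - 1) ^ 2 * m 1 + (κ - 1) * (κ * η * M) + D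
        = κ * (κ - 1) * ((κ - 1) * m 1 + (κ * η * M + D / (κ - 1)) / κ) := by
      field_simp; ring
    rw [h9]; positivity
  have hA : κ * m 1 ≤ (1 - κ) * r * t + κ ^ 2 * r := by linarith
  have hB : (κ - 1) ^ 2 - 1 ≥ 0 := by nlinarith
  have hC : ((κ - 1) ^ 2 - 1) * (κ * m 1)
      ≤ ((κ - 1) ^ 2 - 1) * ((1 - κ) * r * t + κ ^ 2 * r) :=
    mul_le_mul_of_nonneg_left hA hB
  have hE : (κ - 1) * r * (κ ^ 2 - η ^ 2) ≤ (κ - 1) * r * t :=
    mul_le_mul_of_nonneg_left ht (by positivity)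
  have hF : (κ - 1) ^ 2 * ((κ - 1) * r * (κ ^ 2 - η ^ 2))
      ≤ (κ - 1) ^ 2 * ((κ - 1) * r * t) :=
    mul_le_mul_of_nonneg_left hE (by positivity)
  rw [hD] at hg2
  linarith

theorem key_estimate [CompleteSpace H] (T : H →L[ℂ] H) (E : ℕ → H →L[ℂ] H) (G : ℕ → H → H → ℝ) (w : ℂ)
    (hw : 0 < w.re) (M : ℝ) (hE0 : E 0 = w • (1 : H →L[ℂ] H))
    (hcomm : ∀ n, T * E n = E n * T) (hM : ∀ n, ‖E n * T ^ n‖ ≤ M)
    (hG : ∀ (n : ℕ) (a u : H), G n a u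
      = (⟪a, E n u⟫_ℂ + (starRingEnd ℂ w) * ⟪(T ^ n) a, u⟫_ℂ).re)
    (hpos : PosSeq G) (hlt : 2 < ‖T‖) (x : H) (hx : ‖x‖ = 1) (η : ℝ) (hη : 0 ≤ η)
    (hTx : ‖T‖ ^ 2 - η ^ 2 ≤ ‖T x‖ ^ 2) :
    w.re * ‖T‖ ^ 2 * (‖T‖ - 2) * (‖T‖ - 1) ^ 2
      ≤ (‖T‖ - 1) * (‖T‖ * η * M) + w.re * (‖T‖ - 1) ^ 3 * η ^ 2 := by
  have hen := defect_bound T x hx η hη hTx
  set κ := ‖T‖ with hκ
  set r := w.re with hr
  have hsq : ∀ y : H, ((starRingEnd ℂ w) * ⟪y, y⟫_ℂ).re = r * ‖y‖ ^ 2 := by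
    intro y
    rw [inner_self_eq_norm_sq_to_K]
    simp [hr, ← Complex.ofReal_pow]
  have hG0 : ∀ y : H, G 0 y y = 2 * r * ‖y‖ ^ 2 := by
    intro y
    rw [hG, hE0, Complex.add_re, pow_zero]
    have h1 : (1 : H →L[ℂ] H) y = y := rfl
    rw [h1, hsq]
    have : (⟪y, (w • (1 : H →L[ℂ] H)) y⟫_ℂ).re = r * ‖y‖ ^ 2 := by
      simp only [smul_apply, h1, inner_smul_right]
      rw [inner_self_eq_norm_sq_to_K]
      simp [hr, ← Complex.ofReal_pow]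
    rw [this]; ring
  set m : ℕ → ℝ := fun n => (⟪x, (E n * T ^ n) x⟫_ℂ).re with hm
  have hmM : ∀ n, |m n| ≤ M := by
    intro n
    calc |m n| ≤ ‖⟪x, (E n * T ^ n) x⟫_ℂ‖ := Complex.abs_re_le_norm _
      _ ≤ ‖x‖ * ‖(E n * T ^ n) x‖ := norm_inner_le_norm _ _
      _ ≤ ‖x‖ * (‖E n * T ^ n‖ * ‖x‖) := by
        gcongr; exact le_opNorm _ _
      _ ≤ M := by rw [hx]; simpa using hM n
  set e : H := adjoint T (T x) - ((κ ^ 2 : ℝ) : ℂ) • x with he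
  have hκ0 : 0 < κ := by linarith
  have hb1 : G 1 x (T x) = m 1 + r * ‖T x‖ ^ 2 := by
    rw [hG, Complex.add_re, pow_one, hsq]
    simp [hm]
  refine real_combine κ r M η (‖T x‖ ^ 2) _ m hlt hw hmM hTx rfl ?_ ?_
  · have := hpos 0 0 (T x) x 0 κ
    simp only [hG0, hb1, hx] at this
    linarith
  · intro n
    have h := hpos n ((T ^ (n + 1)) x) (T x) x (κ - 1) κ
    simp only [hG0, hb1, hx] at h
    have ha : G n (T x) ((T ^ (n + 1)) x)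
        = κ ^ 2 * m n + (⟪e, (E n * T ^ n) x⟫_ℂ).re + r * ‖(T ^ (n + 1)) x‖ ^ 2 := by
      rw [hG, Complex.add_re]
      have h1 : (T ^ n) (T x) = (T ^ (n + 1)) x := by rw [pow_succ]; rfl
      rw [h1, hsq]
      have h2 : E n ((T ^ (n + 1)) x) = T ((E n * T ^ n) x) := by
        have : E n * T ^ (n + 1) = T * (E n * T ^ n) := by
          rw [← mul_assoc, hcomm, mul_assoc, pow_succ']
        exact congrArg (fun S : H →L[ℂ] H => S x) this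
      rw [h2, ← adjoint_inner_left]
      have h3 : adjoint T (T x) = e + ((κ ^ 2 : ℝ) : ℂ) • x := by rw [he]; simp
      rw [h3, inner_add_left, inner_smul_left, Complex.add_re]
      simp only [Complex.conj_ofReal, Complex.re_ofReal_mul, hm]
      ring
    have hb : G (n + 1) x ((T ^ (n + 1)) x)
        = m (n + 1) + r * ‖(T ^ (n + 1)) x‖ ^ 2 := by
      rw [hG, Complex.add_re, hsq]
      simp [hm]
    rw [ha, hb] at h
    have hM0 : 0 ≤ M := le_trans (norm_nonneg _) (hM 0)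
    have he2 : (⟪e, (E n * T ^ n) x⟫_ℂ).re ≤ κ * η * M := by
      calc (⟪e, (E n * T ^ n) x⟫_ℂ).re ≤ ‖⟪e, (E n * T ^ n) x⟫_ℂ‖ := Complex.re_le_norm _
        _ ≤ ‖e‖ * ‖(E n * T ^ n) x‖ := norm_inner_le_norm _ _
        _ ≤ (κ * η) * (‖E n * T ^ n‖ * ‖x‖) := by
          gcongr; exact le_opNorm _ _
        _ ≤ κ * η * M := by
          rw [hx, mul_one]; gcongr; exact hM n
    have hk1 : 0 < κ - 1 := by linarith
    have h11 := mul_le_mul_of_nonneg_left he2 hk1.le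
    linarith

theorem norm_le_two_of_posSeq [CompleteSpace H] (T : H →L[ℂ] H) (E : ℕ → H →L[ℂ] H) (G : ℕ → H → H → ℝ) (w : ℂ)
    (hw : 0 < w.re) (M : ℝ) (hE0 : E 0 = w • (1 : H →L[ℂ] H))
    (hcomm : ∀ n, T * E n = E n * T) (hM : ∀ n, ‖E n * T ^ n‖ ≤ M)
    (hG : ∀ (n : ℕ) (a u : H), G n a u
      = (⟪a, E n u⟫_ℂ + (starRingEnd ℂ w) * ⟪(T ^ n) a, u⟫_ℂ).re)
    (hpos : PosSeq G) : ‖T‖ ≤ 2 := by
  by_contra hlt
  push Not at hlt
  have hall : ∀ η : ℝ, 0 < η → η ≤ 1 → w.re * ‖T‖ ^ 2 * (‖T‖ - 2) * (‖T‖ - 1) ^ 2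
      ≤ (‖T‖ - 1) * (‖T‖ * η * M) + w.re * (‖T‖ - 1) ^ 3 * η ^ 2 := by
    intro η hη hη1
    have hlt2 : √(‖T‖ ^ 2 - η ^ 2) < ‖T‖ := by
      rw [Real.sqrt_lt' (by linarith)]
      nlinarith
    obtain ⟨x, hx1, hx2⟩ := T.exists_lt_apply_of_lt_opNorm hlt2
    have hx0 : x ≠ 0 := by
      rintro rfl
      simp only [map_zero, norm_zero] at hx2
      exact absurd hx2 (not_lt.mpr (Real.sqrt_nonneg _))
    have hxn : 0 < ‖x‖ := norm_pos_iff.mpr hx0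
    refine key_estimate T E G w hw M hE0 hcomm hM hG hpos hlt (((‖x‖⁻¹ : ℝ) : ℂ) • x) ?_ η hη.le ?_
    · rw [norm_smul]; simp [hxn.ne']
    · rw [map_smul, norm_smul]
      have h1 : ‖T x‖ ≤ ‖((‖x‖⁻¹ : ℝ) : ℂ)‖ * ‖T x‖ := by
        have : 1 ≤ ‖((‖x‖⁻¹ : ℝ) : ℂ)‖ := by
          simp only [Complex.ofReal_inv, norm_inv, Complex.norm_real, norm_norm]
          exact one_le_inv₀ hxn |>.mpr hx1.le
        nlinarith [norm_nonneg (T x)]
      have h2 : ‖T‖ ^ 2 - η ^ 2 ≤ ‖T x‖ ^ 2 := by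
        have := Real.sq_sqrt (show 0 ≤ ‖T‖ ^ 2 - η ^ 2 by nlinarith)
        nlinarith [Real.sqrt_nonneg (‖T‖ ^ 2 - η ^ 2)]
      exact h2.trans (pow_le_pow_left₀ (norm_nonneg _) h1 2)
  have hM0 : 0 ≤ M := le_trans (norm_nonneg _) (hM 0)
  set κ := ‖T‖
  set c := w.re * κ ^ 2 * (κ - 2) * (κ - 1) ^ 2 with hc
  have hk1 : 0 < κ - 1 := by linarith
  have hk2 : 0 < κ - 2 := by linarith
  have hc0 : 0 < c := by positivity
  set K := (κ - 1) * (κ * M) + w.re * (κ - 1) ^ 3 with hK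
  have hK0 : 0 < K := by positivity
  have h := hall (min 1 (c / (2 * K))) (by positivity) (min_le_left _ _)
  set η := min 1 (c / (2 * K)) with hη
  have hη0 : 0 < η := by positivity
  have hη1 : η ≤ 1 := min_le_left _ _
  have hη2 : η * (2 * K) ≤ c := by
    rw [← le_div_iff₀ (by positivity)]; exact min_le_right _ _
  have h3 : η ^ 2 ≤ η := by nlinarith
  have h4 : w.re * (κ - 1) ^ 3 * η ^ 2 ≤ w.re * (κ - 1) ^ 3 * η :=
    mul_le_mul_of_nonneg_left h3 (by positivity)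
  have h5 : (κ - 1) * (κ * η * M) + w.re * (κ - 1) ^ 3 * η = η * K := by rw [hK]; ring
  nlinarith

end Vale.Agent.P123
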