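import Mathlib
import Vale.Agent.P123.Abstract

/-!
Polygonal contour integrals and the double layer potential.
-/

namespace Vale.Agent.P123

open scoped InnerProductSpace
open Set

/-- A closed polygon with vertices `V 0, ..., V N = V 0`. -/
structure Contour where
  N : ℕ
  V : ℕ → ℂ
  closed : V N = V 0

namespace Contour

variable (γ : Contour)

/-- The point with parameter `t` on edge `j`. -/
def pt (j : ℕ) (t : ℝ) : ℂ := γ.V j + t * (γ.V (j + 1) - γ.V j)

/-- The weight `-i` times the edge vector. -/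
def wt (j : ℕ) : ℂ := -Complex.I * (γ.V (j + 1) - γ.V j)

/-- The set of points on the polygon. -/
def trace : Set ℂ := {σ | ∃ j < γ.N, ∃ t ∈ Icc (0 : ℝ) 1, σ = γ.pt j t}

/-- `-i` times the contour integral. -/
noncomputable def int {X : Type*} [NormedAddCommGroup X] [NormedSpace ℂ X] (F : ℂ → X) : X :=
  ∑ j ∈ Finset.range γ.N, ∫ t in (0 : ℝ)..1, γ.wt j • F (γ.pt j t)

variable {X Y : Type*} [NormedAddCommGroup X] [NormedSpace ℂ X]
  [NormedAddCommGroup Y] [NormedSpace ℂ Y]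

theorem continuous_pt (j : ℕ) : Continuous (γ.pt j) := by
  unfold pt; fun_prop

theorem pt_mem {j : ℕ} (hj : j < γ.N) {t : ℝ} (ht : t ∈ Icc (0 : ℝ) 1) : γ.pt j t ∈ γ.trace :=
  ⟨j, hj, t, ht, rfl⟩

theorem contOn_comp {Z : Type*} [TopologicalSpace Z] {F : ℂ → Z} (hF : ContinuousOn F γ.trace)
    {j : ℕ} (hj : j < γ.N) :
    ContinuousOn (fun t => F (γ.pt j t)) (Icc (0 : ℝ) 1) :=
  hF.comp (γ.continuous_pt j).continuousOn (fun _ ht => γ.pt_mem hj ht)

theorem integrable {F : ℂ → X} (hF : ContinuousOn F γ.trace) {j : ℕ} (hj : j < γ.N) :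
    IntervalIntegrable (fun t => γ.wt j • F (γ.pt j t)) MeasureTheory.volume 0 1 := by
  apply ContinuousOn.intervalIntegrable
  rw [uIcc_of_le zero_le_one]
  exact (γ.contOn_comp hF hj).const_smul _

theorem int_congr {F G : ℂ → X} (h : ∀ σ ∈ γ.trace, F σ = G σ) : γ.int F = γ.int G := by
  refine Finset.sum_congr rfl fun j hj => intervalIntegral.integral_congr fun t ht => ?_
  rw [uIcc_of_le zero_le_one] at ht
  simp only [h _ (γ.pt_mem (Finset.mem_range.mp hj) ht)]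

theorem int_add {F G : ℂ → X} (hF : ContinuousOn F γ.trace) (hG : ContinuousOn G γ.trace) :
    γ.int (fun σ => F σ + G σ) = γ.int F + γ.int G := by
  unfold int
  rw [← Finset.sum_add_distrib]
  refine Finset.sum_congr rfl fun j hj => ?_
  rw [← intervalIntegral.integral_add (γ.integrable hF (Finset.mem_range.mp hj))
    (γ.integrable hG (Finset.mem_range.mp hj))]
  simp only [smul_add]

theorem int_map [CompleteSpace X] [CompleteSpace Y] (L : X →L[ℂ] Y) {F : ℂ → X}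
    (hF : ContinuousOn F γ.trace) : L (γ.int F) = γ.int (fun σ => L (F σ)) := by
  unfold int
  rw [map_sum]
  refine Finset.sum_congr rfl fun j hj => ?_
  rw [← L.intervalIntegral_comp_comm (γ.integrable hF (Finset.mem_range.mp hj))]
  simp only [map_smul]

theorem int_smul (c : ℂ) (F : ℂ → X) : γ.int (fun σ => c • F σ) = c • γ.int F := by
  unfold int
  rw [Finset.smul_sum]
  refine Finset.sum_congr rfl fun j _ => ?_
  rw [← intervalIntegral.integral_smul]
  simp only [smul_comm c]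

theorem int_deriv [CompleteSpace X] {Φ F : ℂ → X} (hF : ContinuousOn F γ.trace)
    (hΦ : ∀ σ ∈ γ.trace, HasDerivAt Φ (F σ) σ) : γ.int F = 0 := by
  have h : ∀ j ∈ Finset.range γ.N, ∫ t in (0 : ℝ)..1, γ.wt j • F (γ.pt j t)
      = (-Complex.I) • Φ (γ.V (j + 1)) - (-Complex.I) • Φ (γ.V j) := by
    intro j hj
    have hj' := Finset.mem_range.mp hj
    have := intervalIntegral.integral_eq_sub_of_hasDerivAt
      (f := fun t : ℝ => (-Complex.I) • Φ (γ.pt j t)) (a := 0) (b := 1)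
      (f' := fun t => γ.wt j • F (γ.pt j t)) ?_ (γ.integrable hF hj')
    · rw [this]; simp [pt]
    · intro t ht
      rw [uIcc_of_le zero_le_one] at ht
      have h1 : HasDerivAt (γ.pt j) (γ.V (j + 1) - γ.V j) t := by
        unfold pt
        have := ((Complex.ofRealCLM.hasDerivAt (x := t)).mul_const
          (γ.V (j + 1) - γ.V j)).const_add (γ.V j)
        simpa using this
      have h2 := (hΦ _ (γ.pt_mem hj' ht)).scomp t h1
      have h3 := h2.const_smul (-Complex.I)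
      rw [smul_smul] at h3
      exact h3
  unfold int
  rw [Finset.sum_congr rfl h, Finset.sum_range_sub (fun j => (-Complex.I) • Φ (γ.V j)),
    γ.closed, sub_self]

/-- The total length of the polygon. -/
noncomputable def len : ℝ := ∑ j ∈ Finset.range γ.N, ‖γ.wt j‖

theorem norm_int_le {F : ℂ → X} {C : ℝ} (h : ∀ σ ∈ γ.trace, ‖F σ‖ ≤ C) :
    ‖γ.int F‖ ≤ γ.len * C := by
  unfold int len
  rw [Finset.sum_mul]
  refine (norm_sum_le _ _).trans (Finset.sum_le_sum fun j hj => ?_)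
  have := intervalIntegral.norm_integral_le_of_norm_le_const (a := 0) (b := 1)
    (f := fun t => γ.wt j • F (γ.pt j t)) (C := ‖γ.wt j‖ * C) ?_
  · simpa using this
  · intro t ht
    rw [uIoc_of_le zero_le_one] at ht
    rw [norm_smul]
    exact mul_le_mul_of_nonneg_left (h _ (γ.pt_mem (Finset.mem_range.mp hj)
      (Ioc_subset_Icc_self ht))) (norm_nonneg _)

theorem re_int {F : ℂ → ℂ} (hF : ContinuousOn F γ.trace) :
    (γ.int F).re = ∑ j ∈ Finset.range γ.N, ∫ t in (0 : ℝ)..1, (γ.wt j * F (γ.pt j t)).re := by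
  unfold int
  rw [Complex.re_sum]
  refine Finset.sum_congr rfl fun j hj => ?_
  have := Complex.reCLM.intervalIntegral_comp_comm (γ.integrable hF (Finset.mem_range.mp hj))
  simpa using this.symm

end Contour

variable {H : Type*} [NormedAddCommGroup H] [InnerProductSpace ℂ H]

/-- The point `σ` is separated from the numerical range of `A` in direction `n` by `ε`. -/
def Sep (A : H →L[ℂ] H) (n : ℂ) (ε : ℝ) (σ : ℂ) : Prop :=
  ∀ x : H, ε * ‖x‖ ^ 2 ≤ ((starRingEnd ℂ n) * ⟪x, (algebraMap ℂ (H →L[ℂ] H) σ - A) x⟫_ℂ).re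

theorem sep_of_unit (A : H →L[ℂ] H) (n : ℂ) (ε : ℝ) (σ : ℂ)
    (h : ∀ x : H, ‖x‖ = 1 → ε ≤ ((starRingEnd ℂ n) * (σ - ⟪x, A x⟫_ℂ)).re) : Sep A n ε σ := by
  intro x
  by_cases hx : x = 0
  · simp [hx]
  · have hn : 0 < ‖x‖ := norm_pos_iff.mpr hx
    have h1 := h (((‖x‖⁻¹ : ℝ) : ℂ) • x) (by rw [norm_smul]; simp [hn.ne'])
    have h2 : ⟪x, (algebraMap ℂ (H →L[ℂ] H) σ - A) x⟫_ℂ
        = ((‖x‖ ^ 2 : ℝ) : ℂ) * (σ - ⟪((‖x‖⁻¹ : ℝ) : ℂ) • x, A (((‖x‖⁻¹ : ℝ) : ℂ) • x)⟫_ℂ) := by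
      have h3 : (algebraMap ℂ (H →L[ℂ] H) σ - A) x = σ • x - A x := rfl
      rw [h3, inner_sub_right, inner_smul_right, map_smul, inner_smul_left, inner_smul_right,
        inner_self_eq_norm_sq_to_K, Complex.conj_ofReal]
      have : (‖x‖ : ℂ) ≠ 0 := by exact_mod_cast hn.ne'
      push_cast
      field_simp
      rfl
    rw [h2, mul_left_comm, Complex.re_ofReal_mul, mul_comm]
    exact mul_le_mul_of_nonneg_left h1 (by positivity)

theorem Sep.mem [CompleteSpace H] {A : H →L[ℂ] H} {n : ℂ} {ε : ℝ} {σ : ℂ} (h : Sep A n ε σ)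
    (hn : ‖n‖ = 1) (hε : 0 < ε) : σ ∈ resolventSet ℂ A := by
  refine ContinuousLinearMap.isUnit_of_forall_le_norm_inner_map _ (c := ⟨ε, hε.le⟩) hε fun x => ?_
  have h1 := (h x).trans (Complex.re_le_norm _)
  rw [norm_mul, Complex.norm_conj, hn, one_mul, norm_inner_symm] at h1
  rw [mul_comm]
  exact h1

theorem res_mul {A : H →L[ℂ] H} {σ : ℂ} (h : σ ∈ resolventSet ℂ A) :
    resolvent A σ * (algebraMap ℂ (H →L[ℂ] H) σ - A) = 1 := Ring.inverse_mul_cancel _ h

theorem mul_res {A : H →L[ℂ] H} {σ : ℂ} (h : σ ∈ resolventSet ℂ A) :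
    (algebraMap ℂ (H →L[ℂ] H) σ - A) * resolvent A σ = 1 := Ring.mul_inverse_cancel _ h

theorem apply_res {A : H →L[ℂ] H} {σ : ℂ} (h : σ ∈ resolventSet ℂ A) (y : H) :
    (algebraMap ℂ (H →L[ℂ] H) σ - A) (resolvent A σ y) = y :=
  congrArg (fun S : H →L[ℂ] H => S y) (mul_res h)

theorem Sep.norm_res_le [CompleteSpace H] {A : H →L[ℂ] H} {n : ℂ} {ε : ℝ} {σ : ℂ}
    (h : Sep A n ε σ) (hn : ‖n‖ = 1) (hε : 0 < ε) : ‖resolvent A σ‖ ≤ ε⁻¹ := by
  refine ContinuousLinearMap.opNorm_le_bound _ (by positivity) fun y => ?_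
  set z := resolvent A σ y with hz
  have h1 := (h z).trans (Complex.re_le_norm _)
  rw [hz, apply_res (h.mem hn hε), ← hz, norm_mul, Complex.norm_conj, hn, one_mul] at h1
  have h2 := h1.trans (norm_inner_le_norm _ _)
  by_cases hz0 : ‖z‖ = 0
  · rw [hz0]; positivity
  · have hz1 : 0 < ‖z‖ := lt_of_le_of_ne (norm_nonneg _) (Ne.symm hz0)
    rw [inv_mul_eq_div, le_div_iff₀ hε]
    nlinarith

theorem Sep.re_nonneg [CompleteSpace H] {A : H →L[ℂ] H} {n : ℂ} {ε : ℝ} {σ : ℂ}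
    (h : Sep A n ε σ) (hn : ‖n‖ = 1) (hε : 0 < ε) (y : H) :
    ε * ‖resolvent A σ y‖ ^ 2 ≤ (n * ⟪y, resolvent A σ y⟫_ℂ).re := by
  have h1 := h (resolvent A σ y)
  rw [apply_res (h.mem hn hε)] at h1
  rw [← Complex.conj_re, map_mul, inner_conj_symm]
  exact h1

theorem commute_res {A B : H →L[ℂ] H} (hAB : Commute B A) {σ : ℂ} (h : σ ∈ resolventSet ℂ A) :
    Commute B (resolvent A σ) := by
  have h1 : Commute B (algebraMap ℂ (H →L[ℂ] H) σ - A) :=
    (Algebra.commutes σ B).symm |> fun h => Commute.sub_right h hAB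
  have h2 : B * resolvent A σ = resolvent A σ * (algebraMap ℂ (H →L[ℂ] H) σ - A) * B
      * resolvent A σ := by rw [res_mul h, one_mul]
  show B * resolvent A σ = resolvent A σ * B
  rw [h2, mul_assoc (resolvent A σ), ← h1.eq, mul_assoc, mul_assoc, mul_res h, mul_one]

theorem contOn_res [CompleteSpace H] {A : H →L[ℂ] H} {S : Set ℂ}
    (h : ∀ σ ∈ S, σ ∈ resolventSet ℂ A) : ContinuousOn (resolvent A) S := fun σ hσ =>
  (spectrum.hasDerivAt_resolvent_const_left (h σ hσ)).continuousAt.continuousWithinAt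

theorem const_of_sq_bound {X : Type*} [NormedAddCommGroup X] (φ : ℝ → X) (C : ℝ)
    (h : ∀ s ∈ Icc (0 : ℝ) 1, ∀ s' ∈ Icc (0 : ℝ) 1, ‖φ s - φ s'‖ ≤ C * (s - s') ^ 2) :
    φ 1 = φ 0 := by
  have key : ∀ N : ℕ, ‖φ 1 - φ 0‖ ≤ C / (N + 1) := by
    intro N
    have hN : (0 : ℝ) < N + 1 := by positivity
    have h1 : φ 1 - φ 0 = ∑ k ∈ Finset.range (N + 1),
        (φ (((k + 1 : ℕ) : ℝ) / (N + 1)) - φ ((k : ℝ) / (N + 1))) := by
      rw [Finset.sum_range_sub (fun k : ℕ => φ ((k : ℝ) / (N + 1)))]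
      push_cast
      rw [div_self hN.ne', zero_div]
    rw [h1]
    refine (norm_sum_le _ _).trans ?_
    have h2 : ∀ k ∈ Finset.range (N + 1),
        ‖φ (((k + 1 : ℕ) : ℝ) / (N + 1)) - φ ((k : ℝ) / (N + 1))‖ ≤ C / (N + 1) ^ 2 := by
      intro k hk
      have hk' : ((k + 1 : ℕ) : ℝ) ≤ N + 1 := by exact_mod_cast Finset.mem_range.mp hk
      have hk'' : (k : ℝ) ≤ N + 1 := by push_cast at hk'; linarith
      refine (h _ ⟨by positivity, (div_le_one hN).mpr hk'⟩ _
        ⟨by positivity, (div_le_one hN).mpr hk''⟩).trans (le_of_eq ?_)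
      push_cast
      field_simp
      ring
    refine (Finset.sum_le_sum h2).trans (le_of_eq ?_)
    simp only [Finset.sum_const, Finset.card_range, nsmul_eq_mul]
    push_cast
    field_simp
  have hlim : Filter.Tendsto (fun N : ℕ => C / ((N : ℝ) + 1)) Filter.atTop (nhds 0) :=
    (tendsto_const_div_atTop_nhds_zero_nat C).comp (Filter.tendsto_add_atTop_nat 1)
      |>.congr (fun N => by simp)
  have := ge_of_tendsto' hlim key
  exact sub_eq_zero.mp (norm_le_zero_iff.mp this)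

end Vale.Agent.P123
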