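import Mathlib
import Vale.Agent.P123.Contour

/-!
The double layer potential on a polygon and the bound two.
-/

namespace Vale.Agent.P123

open scoped InnerProductSpace
open Set

variable {H : Type*} [NormedAddCommGroup H] [InnerProductSpace ℂ H]

/-- The polygon surrounds the numerical range of `A` positively at distance `ε`. -/
def Surrounds (γ : Contour) (A : H →L[ℂ] H) (ε : ℝ) : Prop :=
  ∀ j < γ.N, ∃ (n : ℂ) (l : ℝ), ‖n‖ = 1 ∧ 0 ≤ l ∧ γ.wt j = l * n ∧
    ∀ t ∈ Icc (0 : ℝ) 1, Sep A n ε (γ.pt j t)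

theorem Surrounds.mem [CompleteSpace H] {γ : Contour} {A : H →L[ℂ] H} {ε : ℝ}
    (h : Surrounds γ A ε) (hε : 0 < ε) : ∀ σ ∈ γ.trace, σ ∈ resolventSet ℂ A := by
  rintro _ ⟨j, hj, t, ht, rfl⟩
  obtain ⟨n, l, hn, -, -, hs⟩ := h j hj
  exact (hs t ht).mem hn hε

theorem Surrounds.norm_le [CompleteSpace H] {γ : Contour} {A : H →L[ℂ] H} {ε : ℝ}
    (h : Surrounds γ A ε) (hε : 0 < ε) : ∀ σ ∈ γ.trace, ‖resolvent A σ‖ ≤ ε⁻¹ := by
  rintro _ ⟨j, hj, t, ht, rfl⟩
  obtain ⟨n, l, hn, -, -, hs⟩ := h j hj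
  exact (hs t ht).norm_res_le hn hε

theorem Surrounds.contOn [CompleteSpace H] {γ : Contour} {A : H →L[ℂ] H} {ε : ℝ}
    (h : Surrounds γ A ε) (hε : 0 < ε) : ContinuousOn (resolvent A) γ.trace :=
  contOn_res (h.mem hε)

theorem Surrounds.scalar {γ : Contour} {A : H →L[ℂ] H} {ε : ℝ} (h : Surrounds γ A ε)
    (x₀ : H) (hx₀ : ‖x₀‖ = 1) :
    Surrounds γ (algebraMap ℂ (H →L[ℂ] H) ⟪x₀, A x₀⟫_ℂ) ε := by
  intro j hj
  obtain ⟨n, l, hn, hl, hw, hs⟩ := h j hj
  refine ⟨n, l, hn, hl, hw, fun t ht => sep_of_unit _ _ _ _ fun x hx => ?_⟩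
  have h1 := hs t ht x₀
  have h2 : (algebraMap ℂ (H →L[ℂ] H) (γ.pt j t) - A) x₀ = γ.pt j t • x₀ - A x₀ := rfl
  have h3 : (algebraMap ℂ (H →L[ℂ] H) ⟪x₀, A x₀⟫_ℂ) x = ⟪x₀, A x₀⟫_ℂ • x := rfl
  rw [h2, inner_sub_right, inner_smul_right, inner_self_eq_norm_sq_to_K, hx₀] at h1
  rw [h3, inner_smul_right, inner_self_eq_norm_sq_to_K, hx]
  simpa using h1

theorem Surrounds.segment {γ : Contour} {A B : H →L[ℂ] H} {ε : ℝ} (hA : Surrounds γ A ε)
    (hB : ∀ (n : ℂ) (σ : ℂ), Sep A n ε σ → Sep B n ε σ) (s : ℝ) (hs : s ∈ Icc (0 : ℝ) 1) :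
    Surrounds γ (B + (s : ℂ) • (A - B)) ε := by
  intro j hj
  obtain ⟨n, l, hn, hl, hw, hsep⟩ := hA j hj
  refine ⟨n, l, hn, hl, hw, fun t ht x => ?_⟩
  have h1 := hsep t ht x
  have h2 := hB n _ (hsep t ht) x
  have h3 : (algebraMap ℂ (H →L[ℂ] H) (γ.pt j t) - (B + (s : ℂ) • (A - B))) x
      = (s : ℂ) • (algebraMap ℂ (H →L[ℂ] H) (γ.pt j t) - A) x
        + ((1 - s : ℝ) : ℂ) • (algebraMap ℂ (H →L[ℂ] H) (γ.pt j t) - B) x := by
    simp only [sub_apply, add_apply,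
      smul_apply]
    push_cast
    module
  rw [h3, inner_add_right, inner_smul_right, inner_smul_right, mul_add, mul_left_comm,
    mul_left_comm (starRingEnd ℂ n), Complex.add_re, Complex.re_ofReal_mul, Complex.re_ofReal_mul]
  have h4 := mul_le_mul_of_nonneg_left h1 hs.1
  have h5 := mul_le_mul_of_nonneg_left h2 (sub_nonneg.mpr hs.2)
  linarith

theorem sep_scalar {A : H →L[ℂ] H} {ε : ℝ} (x₀ : H) (hx₀ : ‖x₀‖ = 1) (n σ : ℂ)
    (h : Sep A n ε σ) : Sep (algebraMap ℂ (H →L[ℂ] H) ⟪x₀, A x₀⟫_ℂ) n ε σ := by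
  refine sep_of_unit _ _ _ _ fun x hx => ?_
  have h1 := h x₀
  have h2 : (algebraMap ℂ (H →L[ℂ] H) σ - A) x₀ = σ • x₀ - A x₀ := rfl
  have h3 : (algebraMap ℂ (H →L[ℂ] H) ⟪x₀, A x₀⟫_ℂ) x = ⟪x₀, A x₀⟫_ℂ • x := rfl
  rw [h2, inner_sub_right, inner_smul_right, inner_self_eq_norm_sq_to_K, hx₀] at h1
  rw [h3, inner_smul_right, inner_self_eq_norm_sq_to_K, hx]
  simpa using h1

theorem int_res_sq [CompleteSpace H] {γ : Contour} {A : H →L[ℂ] H} {ε : ℝ}
    (h : Surrounds γ A ε) (hε : 0 < ε) : γ.int (fun σ => resolvent A σ ^ 2) = 0 := by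
  refine γ.int_deriv (Φ := fun σ => -resolvent A σ) ((h.contOn hε).pow 2) fun σ hσ => ?_
  have := (spectrum.hasDerivAt_resolvent_const_left (h.mem hε σ hσ)).neg
  rw [neg_neg] at this
  exact this

theorem int_mul_left [CompleteSpace H] (γ : Contour) (B : H →L[ℂ] H) {F : ℂ → H →L[ℂ] H}
    (hF : ContinuousOn F γ.trace) : γ.int (fun σ => B * F σ) = B * γ.int F :=
  (γ.int_map (ContinuousLinearMap.mul ℂ (H →L[ℂ] H) B) hF).symm

theorem int_mul_right [CompleteSpace H] (γ : Contour) (B : H →L[ℂ] H) {F : ℂ → H →L[ℂ] H}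
    (hF : ContinuousOn F γ.trace) : γ.int (fun σ => F σ * B) = γ.int F * B :=
  (γ.int_map ((ContinuousLinearMap.mul ℂ (H →L[ℂ] H)).flip B) hF).symm

theorem int_res_homotopy [CompleteSpace H] {γ : Contour} {A : H →L[ℂ] H} {ε : ℝ}
    (h : Surrounds γ A ε) (hε : 0 < ε) (z : ℂ)
    (hB : ∀ (n : ℂ) (σ : ℂ), Sep A n ε σ → Sep (algebraMap ℂ (H →L[ℂ] H) z) n ε σ) :
    γ.int (resolvent A) = γ.int (resolvent (algebraMap ℂ (H →L[ℂ] H) z)) := by
  set B := algebraMap ℂ (H →L[ℂ] H) z with hBdef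
  set D := A - B with hD
  set As : ℝ → (H →L[ℂ] H) := fun s => B + (s : ℂ) • D with hAs
  have hsur : ∀ s ∈ Icc (0 : ℝ) 1, Surrounds γ (As s) ε := fun s hs => h.segment hB s hs
  have hcomm : ∀ s, Commute D (As s) := by
    intro s
    refine Commute.add_right (Algebra.commutes z D).symm ?_
    exact (Commute.refl D).smul_right _
  have := const_of_sq_bound (fun s => γ.int (resolvent (As s)))
    (γ.len * (‖D‖ ^ 2 * ε⁻¹ ^ 3)) ?_
  · have h1 : As 1 = A := by simp [hAs, hD]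
    have h0 : As 0 = B := by simp [hAs]
    simpa only [h1, h0] using this
  · intro s hs s' hs'
    have hc := (hsur s hs).contOn hε
    have hc' := (hsur s' hs').contOn hε
    have hid : ∀ σ ∈ γ.trace, resolvent (As s) σ
        = resolvent (As s') σ + ((((s - s' : ℝ) : ℂ) • D) * resolvent (As s') σ ^ 2
          + ((s - s' : ℝ) : ℂ) ^ 2 •
            (resolvent (As s) σ * D * resolvent (As s') σ * D * resolvent (As s') σ)) := by
      intro σ hσ
      have hm := (hsur s hs).mem hε σ hσ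
      have hm' := (hsur s' hs').mem hε σ hσ
      have e1 := spectrum.resolvent_sub_resolvent hm hm'
      have e2 : As s - As s' = ((s - s' : ℝ) : ℂ) • D := by
        simp only [hAs]; push_cast; module
      rw [e2] at e1
      have e3 := (commute_res (hcomm s') hm').eq
      set R := resolvent (As s) σ
      set R' := resolvent (As s') σ
      set c : ℂ := ((s - s' : ℝ) : ℂ)
      have e4 : R = R' + c • (R * D * R') := by
        rw [← sub_eq_iff_eq_add', e1, mul_smul_comm, smul_mul_assoc]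
      have e5 : c • (R * D * R') = c • (R' * D * R') + c ^ 2 • (R * D * R' * D * R') := by
        conv_lhs => rw [e4]
        rw [add_mul, add_mul, smul_add, smul_mul_assoc, smul_mul_assoc, smul_smul, sq]
      rw [smul_mul_assoc, sq R', ← mul_assoc D, e3, ← e5]
      exact e4
    have hc2 : ContinuousOn (fun σ => (((s - s' : ℝ) : ℂ) • D) * resolvent (As s') σ ^ 2)
        γ.trace := continuousOn_const.mul (hc'.pow 2)
    have hc3' : ContinuousOn (fun σ =>
        (resolvent (As s) σ * D * resolvent (As s') σ * D * resolvent (As s') σ)) γ.trace :=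
      (((hc.mul continuousOn_const).mul hc').mul continuousOn_const).mul hc'
    have hc3 : ContinuousOn (fun σ => ((s - s' : ℝ) : ℂ) ^ 2 •
        (resolvent (As s) σ * D * resolvent (As s') σ * D * resolvent (As s') σ)) γ.trace :=
      hc3'.fun_const_smul _
    show ‖γ.int (resolvent (As s)) - γ.int (resolvent (As s'))‖ ≤ _
    rw [γ.int_congr hid, γ.int_add hc' (hc2.fun_add hc3), γ.int_add hc2 hc3,
      int_mul_left γ _ (hc'.fun_pow 2), int_res_sq (hsur s' hs') hε, mul_zero, zero_add,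
      add_sub_cancel_left, γ.int_smul, norm_smul, mul_comm, norm_pow, Complex.norm_real,
      Real.norm_eq_abs, sq_abs]
    refine mul_le_mul_of_nonneg_right (γ.norm_int_le fun σ hσ => ?_) (sq_nonneg _)
    have n1 := (hsur s hs).norm_le hε σ hσ
    have n2 := (hsur s' hs').norm_le hε σ hσ
    calc ‖resolvent (As s) σ * D * resolvent (As s') σ * D * resolvent (As s') σ‖
        ≤ ‖resolvent (As s) σ‖ * ‖D‖ * ‖resolvent (As s') σ‖ * ‖D‖ * ‖resolvent (As s') σ‖ := by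
          refine (norm_mul_le _ _).trans (mul_le_mul_of_nonneg_right ?_ (norm_nonneg _))
          refine (norm_mul_le _ _).trans (mul_le_mul_of_nonneg_right ?_ (norm_nonneg _))
          refine (norm_mul_le _ _).trans (mul_le_mul_of_nonneg_right ?_ (norm_nonneg _))
          exact norm_mul_le _ _
      _ ≤ ε⁻¹ * ‖D‖ * ε⁻¹ * ‖D‖ * ε⁻¹ := by gcongr
      _ = ‖D‖ ^ 2 * ε⁻¹ ^ 3 := by ring

theorem res_scalar [Nontrivial H] {z σ : ℂ}
    (h : σ ∈ resolventSet ℂ (algebraMap ℂ (H →L[ℂ] H) z)) :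
    resolvent (algebraMap ℂ (H →L[ℂ] H) z) σ = (σ - z)⁻¹ • (1 : H →L[ℂ] H) := by
  have h1 := mul_res h
  rw [← map_sub, Algebra.algebraMap_eq_smul_one, smul_mul_assoc, one_mul] at h1
  have hne : σ - z ≠ 0 := by
    intro h0
    rw [h0, zero_smul] at h1
    exact zero_ne_one h1
  rw [← h1, smul_smul, inv_mul_cancel₀ hne, one_smul]

theorem exists_scalar [CompleteSpace H] {γ : Contour} {A : H →L[ℂ] H} {ε : ℝ}
    (h : Surrounds γ A ε) (hε : 0 < ε) (x₀ : H) (hx₀ : ‖x₀‖ = 1)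
    (hpos : ∃ j < γ.N, γ.wt j ≠ 0) :
    ∃ w : ℂ, 0 < w.re ∧ γ.int (resolvent A) = w • (1 : H →L[ℂ] H) := by
  have hx0 : x₀ ≠ 0 := by rintro rfl; simp at hx₀
  have : Nontrivial H := ⟨⟨x₀, 0, hx0⟩⟩
  set z := ⟪x₀, A x₀⟫_ℂ with hz
  have hs := h.scalar x₀ hx₀
  have hne : ∀ σ ∈ γ.trace, σ - z ≠ 0 := by
    intro σ hσ h0
    have h1 := mul_res (hs.mem hε σ hσ)
    rw [← map_sub, h0, map_zero, zero_mul] at h1
    exact zero_ne_one h1
  have hc : ContinuousOn (fun σ : ℂ => (σ - z)⁻¹) γ.trace :=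
    (continuousOn_id.sub continuousOn_const).inv₀ hne
  refine ⟨γ.int (fun σ => (σ - z)⁻¹), ?_, ?_⟩
  · rw [γ.re_int hc]
    have hterm : ∀ j < γ.N, ∀ t ∈ Icc (0 : ℝ) 1,
        ‖γ.wt j‖ * (ε * ‖(γ.pt j t - z)⁻¹‖ ^ 2) ≤ (γ.wt j * (γ.pt j t - z)⁻¹).re := by
      intro j hj t ht
      obtain ⟨n, l, hn, hl, hw, hsep⟩ := hs j hj
      have h1 := (hsep t ht).re_nonneg hn hε x₀
      rw [res_scalar ((hsep t ht).mem hn hε)] at h1
      have h2 : ((γ.pt j t - z)⁻¹ • (1 : H →L[ℂ] H)) x₀ = (γ.pt j t - z)⁻¹ • x₀ := rfl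
      rw [h2, inner_smul_right, inner_self_eq_norm_sq_to_K, norm_smul, hx₀] at h1
      rw [hw, mul_assoc, Complex.re_ofReal_mul, norm_mul, hn, Complex.norm_real,
        Real.norm_eq_abs, abs_of_nonneg hl, mul_one]
      refine mul_le_mul_of_nonneg_left ?_ hl
      simpa using h1
    obtain ⟨j, hj, hj0⟩ := hpos
    refine Finset.sum_pos' (fun i hi => ?_) ⟨j, Finset.mem_range.mpr hj, ?_⟩
    · refine intervalIntegral.integral_nonneg zero_le_one fun t ht => ?_
      exact le_trans (by positivity) (hterm i (Finset.mem_range.mp hi) t ht)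
    · refine intervalIntegral.intervalIntegral_pos_of_pos_on ?_ (fun t ht => ?_) zero_lt_one
      · apply ContinuousOn.intervalIntegrable
        rw [uIcc_of_le zero_le_one]
        exact Complex.continuous_re.comp_continuousOn
          (continuousOn_const.mul (γ.contOn_comp hc hj))
      · have ht' := Ioo_subset_Icc_self ht
        refine lt_of_lt_of_le ?_ (hterm j hj t ht')
        have h1 : 0 < ‖γ.wt j‖ := norm_pos_iff.mpr hj0
        have h2 : 0 < ‖(γ.pt j t - z)⁻¹‖ := norm_pos_iff.mpr (inv_ne_zero (hne _ (γ.pt_mem hj ht')))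
        positivity
  · rw [int_res_homotopy h hε z (sep_scalar x₀ hx₀),
      γ.int_congr (fun σ hσ => res_scalar (hs.mem hε σ hσ))]
    exact (γ.int_map (ContinuousLinearMap.toSpanSingleton ℂ (1 : H →L[ℂ] H)) hc).symm

theorem int_pow_res [CompleteSpace H] {γ : Contour} {A : H →L[ℂ] H} {ε : ℝ}
    (h : Surrounds γ A ε) (hε : 0 < ε) (k : ℕ) :
    γ.int (fun σ => σ ^ k • resolvent A σ) = A ^ k * γ.int (resolvent A) := by
  have hc := h.contOn hε
  induction k with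
  | zero => simp
  | succ k ih =>
    have hid : ∀ σ ∈ γ.trace, σ ^ (k + 1) • resolvent A σ
        = σ ^ k • (1 : H →L[ℂ] H) + A * (σ ^ k • resolvent A σ) := by
      intro σ hσ
      have h1 := mul_res (h.mem hε σ hσ)
      rw [sub_mul, Algebra.algebraMap_eq_smul_one, smul_mul_assoc, one_mul] at h1
      rw [← h1, mul_smul_comm, smul_sub, smul_smul, pow_succ]
      abel
    have hc1 : ContinuousOn (fun σ : ℂ => σ ^ k • (1 : H →L[ℂ] H)) γ.trace := by fun_prop
    have hc2 : ContinuousOn (fun σ : ℂ => σ ^ k • resolvent A σ) γ.trace :=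
      (continuousOn_id.pow k).smul hc
    have h0 : γ.int (fun σ : ℂ => σ ^ k • (1 : H →L[ℂ] H)) = 0 := by
      refine γ.int_deriv (Φ := fun σ : ℂ => (σ ^ (k + 1) / (k + 1)) • (1 : H →L[ℂ] H)) hc1
        fun σ _ => ?_
      have h1 : HasDerivAt (fun σ : ℂ => σ ^ (k + 1) / (k + 1)) (σ ^ k) σ := by
        have h2 := (hasDerivAt_pow (k + 1) σ).div_const ((k : ℂ) + 1)
        have h3 : ((k : ℂ) + 1) ≠ 0 := by exact_mod_cast Nat.succ_ne_zero k
        have h4 : ((k + 1 : ℕ) : ℂ) * σ ^ (k + 1 - 1) / ((k : ℂ) + 1) = σ ^ k := by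
          rw [Nat.add_sub_cancel]; push_cast; field_simp
        rwa [h4] at h2
      exact h1.smul_const _
    rw [γ.int_congr hid, γ.int_add hc1 (continuousOn_const.fun_mul hc2), h0, zero_add,
      int_mul_left γ A hc2, ih, ← mul_assoc, pow_succ']

theorem int_poly_res [CompleteSpace H] {γ : Contour} {A : H →L[ℂ] H} {ε : ℝ}
    (h : Surrounds γ A ε) (hε : 0 < ε) (f : Polynomial ℂ) :
    γ.int (fun σ => f.eval σ • resolvent A σ) = Polynomial.aeval A f * γ.int (resolvent A) := by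
  have hc := h.contOn hε
  induction f using Polynomial.induction_on' with
  | add p q hp hq =>
    simp only [Polynomial.eval_add, add_smul, map_add, add_mul]
    rw [γ.int_add (p.continuous.continuousOn.fun_smul hc) (q.continuous.continuousOn.fun_smul hc), hp, hq]
  | monomial k a =>
    simp only [Polynomial.eval_monomial, Polynomial.aeval_monomial, mul_smul]
    rw [γ.int_smul, int_pow_res h hε, Algebra.algebraMap_eq_smul_one, smul_mul_assoc, one_mul,
      smul_mul_assoc]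

theorem norm_aeval_le_two [CompleteSpace H] {γ : Contour} {A : H →L[ℂ] H} {ε : ℝ}
    (h : Surrounds γ A ε) (hε : 0 < ε) (x₀ : H) (hx₀ : ‖x₀‖ = 1)
    (hpos : ∃ j < γ.N, γ.wt j ≠ 0) (f : Polynomial ℂ) (hf : ∀ σ ∈ γ.trace, ‖f.eval σ‖ ≤ 1) :
    ‖Polynomial.aeval A f‖ ≤ 2 := by
  obtain ⟨w, hw, hint⟩ := exists_scalar h hε x₀ hx₀ hpos
  have hc := h.contOn hε
  have hfc : ContinuousOn (fun σ => f.eval σ) γ.trace := f.continuous.continuousOn
  have hfc' : ContinuousOn (fun σ => starRingEnd ℂ (f.eval σ)) γ.trace :=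
    Complex.continuous_conj.comp_continuousOn hfc
  set T := Polynomial.aeval A f with hT
  set E : ℕ → H →L[ℂ] H := fun n =>
    γ.int (fun σ => (starRingEnd ℂ (f.eval σ)) ^ n • resolvent A σ) with hE
  have hEc : ∀ n : ℕ, ContinuousOn (fun σ => (starRingEnd ℂ (f.eval σ)) ^ n • resolvent A σ)
      γ.trace := fun n => (hfc'.pow n).smul hc
  have hFc : ∀ n : ℕ, ContinuousOn (fun σ => (f.eval σ) ^ n • resolvent A σ)
      γ.trace := fun n => (hfc.pow n).smul hc
  have hF : ∀ n : ℕ, γ.int (fun σ => (f.eval σ) ^ n • resolvent A σ) = w • T ^ n := by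
    intro n
    have := int_poly_res h hε (f ^ n)
    simp only [Polynomial.eval_pow, map_pow] at this
    rw [this, hint, mul_smul_comm, mul_one]
  have hbd : ∀ (g : ℂ → ℂ), (∀ σ ∈ γ.trace, ‖g σ‖ ≤ 1) → ∀ n : ℕ,
      ‖γ.int (fun σ => g σ ^ n • resolvent A σ)‖ ≤ γ.len * ε⁻¹ := by
    intro g hg n
    refine γ.norm_int_le fun σ hσ => ?_
    rw [norm_smul, norm_pow]
    have h1 : ‖g σ‖ ^ n ≤ 1 := pow_le_one₀ (norm_nonneg _) (hg σ hσ)
    have h2 := h.norm_le hε σ hσ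
    calc ‖g σ‖ ^ n * ‖resolvent A σ‖ ≤ 1 * ε⁻¹ := by gcongr
      _ = ε⁻¹ := one_mul _
  have hw0 : 0 < ‖w‖ := lt_of_lt_of_le hw (Complex.re_le_norm w)
  refine norm_le_two_of_posSeq T E
    (fun n a u => ∑ j ∈ Finset.range γ.N, ∫ t in (0 : ℝ)..1,
      ((starRingEnd ℂ (f.eval (γ.pt j t))) ^ n * ⟪a, (γ.wt j • resolvent A (γ.pt j t)) u⟫_ℂ
        + (f.eval (γ.pt j t)) ^ n * ⟪u, (γ.wt j • resolvent A (γ.pt j t)) a⟫_ℂ).re)
    w hw ((γ.len * ε⁻¹) * ((γ.len * ε⁻¹) / ‖w‖)) ?_ ?_ ?_ ?_ ?_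
  · simp only [hE, pow_zero, one_smul]
    exact hint
  · intro n
    simp only [hE]
    rw [← int_mul_left γ T (hEc n), ← int_mul_right γ T (hEc n)]
    refine γ.int_congr fun σ hσ => ?_
    have h1 : Commute T A := by
      rw [hT]
      have h2 : Polynomial.aeval A (f * Polynomial.X) = Polynomial.aeval A (Polynomial.X * f) := by
        rw [mul_comm]
      simp only [map_mul, Polynomial.aeval_X] at h2
      exact h2
    exact ((commute_res h1 (h.mem hε σ hσ)).smul_right _).eq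
  · intro n
    have h1 : ‖E n‖ ≤ γ.len * ε⁻¹ :=
      hbd (fun σ => starRingEnd ℂ (f.eval σ)) (fun σ hσ => by simpa using hf σ hσ) n
    have h2 : ‖T ^ n‖ ≤ (γ.len * ε⁻¹) / ‖w‖ := by
      have := hbd (fun σ => f.eval σ) hf n
      rw [hF, norm_smul] at this
      rw [le_div_iff₀ hw0, mul_comm]
      exact this
    exact (norm_mul_le _ _).trans (mul_le_mul h1 h2 (norm_nonneg _) ((norm_nonneg _).trans h1))
  · intro n a u
    have e1 : ⟪a, E n u⟫_ℂ = γ.int (fun σ =>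
        ⟪a, ((starRingEnd ℂ (f.eval σ)) ^ n • resolvent A σ) u⟫_ℂ) :=
      γ.int_map ((innerSL ℂ a).comp (ContinuousLinearMap.apply ℂ H u)) (hEc n)
    have e2 : ⟪u, (w • T ^ n) a⟫_ℂ = γ.int (fun σ =>
        ⟪u, ((f.eval σ) ^ n • resolvent A σ) a⟫_ℂ) := by
      rw [← hF]
      exact γ.int_map ((innerSL ℂ u).comp (ContinuousLinearMap.apply ℂ H a)) (hFc n)
    have c1 : ContinuousOn (fun σ =>
        ⟪a, ((starRingEnd ℂ (f.eval σ)) ^ n • resolvent A σ) u⟫_ℂ) γ.trace :=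
      ((innerSL ℂ a).comp (ContinuousLinearMap.apply ℂ H u)).continuous.comp_continuousOn (hEc n)
    have c2 : ContinuousOn (fun σ => ⟪u, ((f.eval σ) ^ n • resolvent A σ) a⟫_ℂ) γ.trace :=
      ((innerSL ℂ u).comp (ContinuousLinearMap.apply ℂ H a)).continuous.comp_continuousOn (hFc n)
    have e3 : ((starRingEnd ℂ w) * ⟪(T ^ n) a, u⟫_ℂ).re = (⟪u, (w • T ^ n) a⟫_ℂ).re := by
      rw [← Complex.conj_re, map_mul, inner_conj_symm, Complex.conj_conj]
      rw [smul_apply, inner_smul_right]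
    rw [Complex.add_re, e3, ← Complex.add_re, e1, e2, ← γ.int_add c1 c2, γ.re_int (c1.fun_add c2)]
    refine Finset.sum_congr rfl fun j _ => intervalIntegral.integral_congr fun t _ => ?_
    simp only [smul_apply, inner_smul_right]
    congr 1
    ring
  · refine PosSeq.sum _ (fun j n a u => ∫ t in (0 : ℝ)..1,
      ((starRingEnd ℂ (f.eval (γ.pt j t))) ^ n * ⟪a, (γ.wt j • resolvent A (γ.pt j t)) u⟫_ℂ
        + (f.eval (γ.pt j t)) ^ n * ⟪u, (γ.wt j • resolvent A (γ.pt j t)) a⟫_ℂ).re)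
      fun j hj => ?_
    have hj' := Finset.mem_range.mp hj
    refine PosSeq.integral (fun t n a u =>
      ((starRingEnd ℂ (f.eval (γ.pt j t))) ^ n * ⟪a, (γ.wt j • resolvent A (γ.pt j t)) u⟫_ℂ
        + (f.eval (γ.pt j t)) ^ n * ⟪u, (γ.wt j • resolvent A (γ.pt j t)) a⟫_ℂ).re) ?_ ?_
    · intro n a u
      have c0 := (γ.contOn_comp hc hj').const_smul (γ.wt j)
      have c1 := ((innerSL ℂ a).comp
        (ContinuousLinearMap.apply ℂ H u)).continuous.comp_continuousOn c0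
      have c2 := ((innerSL ℂ u).comp
        (ContinuousLinearMap.apply ℂ H a)).continuous.comp_continuousOn c0
      exact Complex.continuous_re.comp_continuousOn
        ((((γ.contOn_comp hfc' hj').pow n).mul c1).add (((γ.contOn_comp hfc hj').pow n).mul c2))
    · intro t ht
      refine posSeq_point _ (fun y => ?_) _ (hf _ (γ.pt_mem hj' ht))
      obtain ⟨n, l, hn, hl, hw, hsep⟩ := h j hj'
      have h1 := (hsep t ht).re_nonneg hn hε y
      rw [smul_apply, inner_smul_right, hw, mul_assoc, Complex.re_ofReal_mul]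
      exact mul_nonneg hl (le_trans (by positivity) h1)

end Vale.Agent.P123
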