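import Mathlib
import Vale.Agent.P123.Contour

/-!
A circumscribed polygon close to a bounded convex planar set.
-/

namespace Vale.Agent.P123

open Set

theorem real_vertex (α β α' β' c s R : ℝ) (hc : 1 / 2 ≤ c) (hc1 : c ≤ 1) (hs : 0 < s)
    (hs1 : s ≤ 1) (hR : 0 ≤ R)
    (h1 : s ^ 2 ≤ α) (h2 : α ≤ 2 * s ^ 2) (h3 : s ^ 2 ≤ α') (h4 : s ^ 2 ≤ c * α + s * β)
    (h5 : c * α' + s * β' ≤ 2 * s ^ 2) (h6 : β - β' ≤ 2 * R) :
    ∃ t ∈ Icc (0 : ℝ) 1, |(1 - t) * α + t * α'| + |(1 - t) * β + t * β'| ≤ (8 + 4 * R) * s := by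
  have hs2 : 0 < s ^ 2 := by positivity
  have hs3 : s ^ 2 ≤ s := by nlinarith
  have hb : -s ≤ β := by
    have : s * (-s) ≤ s * β := by nlinarith
    exact le_of_mul_le_mul_left this hs
  have hb' : β' ≤ 2 * s := by
    have : s * β' ≤ s * (2 * s) := by nlinarith
    exact le_of_mul_le_mul_left this hs
  have ha' : α' ≤ 6 * s ^ 2 + 4 * R * s := by
    have h7 : -s - 2 * R ≤ β' := by linarith
    have h8 : s * (-s - 2 * R) ≤ s * β' := mul_le_mul_of_nonneg_left h7 hs.le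
    nlinarith
  have hRs : 0 ≤ R * s := by positivity
  by_cases hβ : β ≤ 0
  · refine ⟨0, ⟨le_rfl, zero_le_one⟩, ?_⟩
    simp only [sub_zero, one_mul, zero_mul, add_zero]
    rw [abs_of_nonneg (by linarith), abs_of_nonpos hβ]
    nlinarith
  by_cases hβ' : 0 ≤ β'
  · refine ⟨1, ⟨zero_le_one, le_rfl⟩, ?_⟩
    simp only [sub_self, one_mul, zero_mul, zero_add]
    rw [abs_of_nonneg (by linarith), abs_of_nonneg hβ']
    nlinarith
  push Not at hβ hβ'
  have hd : 0 < β - β' := by linarith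
  have ht0 : 0 ≤ β / (β - β') := by positivity
  have ht1 : β / (β - β') ≤ 1 := by rw [div_le_one hd]; linarith
  refine ⟨β / (β - β'), ⟨ht0, ht1⟩, ?_⟩
  have h9 : (1 - β / (β - β')) * β + β / (β - β') * β' = 0 := by field_simp; ring
  rw [h9, abs_zero, add_zero]
  set t := β / (β - β')
  rw [abs_of_nonneg (by nlinarith)]
  nlinarith

/-- Support function of a planar set. -/
noncomputable def supp (W : Set ℂ) (n : ℂ) : ℝ :=
  sSup ((fun z => ((starRingEnd ℂ n) * z).re) '' W)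

theorem supp_bdd {W : Set ℂ} {R : ℝ} (hR : ∀ z ∈ W, ‖z‖ ≤ R) (n : ℂ) :
    BddAbove ((fun z => ((starRingEnd ℂ n) * z).re) '' W) := by
  refine ⟨‖n‖ * R, ?_⟩
  rintro _ ⟨z, hz, rfl⟩
  refine (Complex.re_le_norm _).trans ?_
  rw [norm_mul, Complex.norm_conj]
  exact mul_le_mul_of_nonneg_left (hR z hz) (norm_nonneg _)

theorem le_supp {W : Set ℂ} {R : ℝ} (hR : ∀ z ∈ W, ‖z‖ ≤ R) (n : ℂ) {z : ℂ} (hz : z ∈ W) :
    ((starRingEnd ℂ n) * z).re ≤ supp W n :=
  le_csSup (supp_bdd hR n) ⟨z, hz, rfl⟩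

theorem exists_near_supp {W : Set ℂ} (hW : W.Nonempty) (n : ℂ) {ε : ℝ} (hε : 0 < ε) :
    ∃ z ∈ W, supp W n - ε ≤ ((starRingEnd ℂ n) * z).re := by
  obtain ⟨_, ⟨z, hz, rfl⟩, h⟩ := exists_lt_of_lt_csSup (hW.image
    (fun z => ((starRingEnd ℂ n) * z).re)) (sub_lt_self (supp W n) hε)
  exact ⟨z, hz, h.le⟩

theorem exists_polygon_aux (W : Set ℂ) (hW : W.Nonempty) (hconv : Convex ℝ W) (R : ℝ)
    (hR : ∀ z ∈ W, ‖z‖ ≤ R) (c s : ℝ) (hc : 1 / 2 ≤ c) (hc1 : c < 1) (hs : 0 < s)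
    (hcs : c ^ 2 + s ^ 2 = 1) (N : ℕ) (hN : 0 < N) (hu : ((c : ℂ) + s * Complex.I) ^ N = 1) :
    ∃ (γ : Contour) (ε : ℝ), 0 < ε ∧
      (∀ j < γ.N, ∃ (n : ℂ) (l : ℝ), ‖n‖ = 1 ∧ 0 ≤ l ∧ γ.wt j = l * n ∧
        ∀ t ∈ Icc (0 : ℝ) 1, ∀ z ∈ W, ε ≤ ((starRingEnd ℂ n) * (γ.pt j t - z)).re) ∧
      (∃ j < γ.N, γ.wt j ≠ 0) ∧ ∀ σ ∈ γ.trace, ∃ z ∈ W, ‖σ - z‖ ≤ (8 + 4 * R) * s := by
  have hR0 : 0 ≤ R := by
    obtain ⟨z, hz⟩ := hW
    exact (norm_nonneg z).trans (hR z hz)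
  have hs1 : s ≤ 1 := by nlinarith
  set u : ℂ := (c : ℂ) + s * Complex.I with hu_def
  have hun : ‖u‖ = 1 := by
    have : ‖u‖ ^ 2 = 1 := by
      rw [← Complex.normSq_eq_norm_sq, hu_def, Complex.normSq_add_mul_I, hcs]
    have h0 := norm_nonneg u
    nlinarith
  set n : ℕ → ℂ := fun j => u ^ j with hn
  have hnn : ∀ j, ‖n j‖ = 1 := fun j => by simp [hn, hun]
  have hnc : ∀ j, (starRingEnd ℂ (n j)) * n j = 1 := fun j => by
    rw [Complex.conj_mul', hnn]; simp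
  have hnsucc : ∀ j, n (j + 1) = n j * u := fun j => pow_succ u j
  have hcu : starRingEnd ℂ u = (c : ℂ) - s * Complex.I := by
    rw [hu_def]; simp [sub_eq_add_neg]
  have hcsC : (c : ℂ) ^ 2 + (s : ℂ) ^ 2 = 1 := by exact_mod_cast hcs
  have hsC : (s : ℂ) ≠ 0 := by exact_mod_cast hs.ne'
  set Hh : ℕ → ℝ := fun j => supp W (n j) + s ^ 2 with hH
  set V : ℕ → ℂ := fun j =>
    n j * ((Hh j : ℂ) + (((Hh (j + 1) - Hh j * c) / s : ℝ) : ℂ) * Complex.I) with hV
  have hV2 : ∀ j, V j = n (j + 1) *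
      ((Hh (j + 1) : ℂ) - (((Hh j - Hh (j + 1) * c) / s : ℝ) : ℂ) * Complex.I) := by
    intro j
    simp only [hV]
    rw [hnsucc, mul_assoc]
    congr 1
    rw [hu_def]
    push_cast
    field_simp
    linear_combination (-(Hh (j + 1) : ℂ) * Complex.I) * hcsC
      + ((s : ℂ) * (Hh j - Hh (j + 1) * c)) * Complex.I_sq
  have hper : ∀ j, n (N + j) = n j := fun j => by simp only [hn]; rw [pow_add, hu, one_mul]
  have hclosed : V N = V 0 := by
    have e0 : n N = n 0 := hper 0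
    have e1 : n (N + 1) = n (0 + 1) := by rw [zero_add]; exact hper 1
    simp only [hV, hH, e0, e1]
  let γ : Contour := ⟨N, V, hclosed⟩
  set l : ℕ → ℝ := fun j => (Hh (j + 2) + Hh j - 2 * c * Hh (j + 1)) / s with hl
  have hdiff : ∀ j, V (j + 1) - V j = n (j + 1) * ((l j : ℂ) * Complex.I) := by
    intro j
    rw [hV2 j]
    simp only [hV, hl]
    push_cast
    field_simp
    ring
  have hwt : ∀ j, γ.wt j = (l j : ℂ) * n (j + 1) := by
    intro j
    show -Complex.I * (V (j + 1) - V j) = _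
    rw [hdiff]
    linear_combination (-(l j : ℂ) * n (j + 1)) * Complex.I_sq
  have hlpos : ∀ j, 0 < l j := by
    intro j
    have hsub : 2 * c * supp W (n (j + 1)) ≤ supp W (n (j + 2)) + supp W (n j) := by
      have : supp W (n (j + 1)) ≤ (supp W (n (j + 2)) + supp W (n j)) / (2 * c) := by
        refine csSup_le (hW.image _) ?_
        rintro _ ⟨z, hz, rfl⟩
        rw [le_div_iff₀ (by linarith)]
        have a1 := le_supp hR (n (j + 2)) hz
        have a2 := le_supp hR (n j) hz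
        have a3 : (starRingEnd ℂ (n (j + 2))) * z + (starRingEnd ℂ (n j)) * z
            = ((2 * c : ℝ) : ℂ) * ((starRingEnd ℂ (n (j + 1))) * z) := by
          rw [hnsucc (j + 1), hnsucc j]
          simp only [map_mul, hcu]
          push_cast
          linear_combination (-(starRingEnd ℂ (n j)) * z) * hcsC
            + ((starRingEnd ℂ (n j)) * z * s ^ 2) * Complex.I_sq
        have a4 := congrArg Complex.re a3
        rw [Complex.add_re, Complex.re_ofReal_mul] at a4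
        show ((starRingEnd ℂ (n (j + 1))) * z).re * (2 * c) ≤ _
        linarith
      rw [le_div_iff₀ (by linarith)] at this
      linarith
    simp only [hl, hH]
    apply div_pos _ hs
    have : 0 < s ^ 2 * (2 - 2 * c) := mul_pos (by positivity) (by linarith)
    linarith
  have hre1 : ∀ j, ((starRingEnd ℂ (n j)) * V j).re = Hh j := by
    intro j
    simp only [hV]
    rw [← mul_assoc, hnc, one_mul]
    simp
  have hre2 : ∀ j, ((starRingEnd ℂ (n (j + 1))) * V j).re = Hh (j + 1) := by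
    intro j
    rw [hV2, ← mul_assoc, hnc, one_mul]
    simp
  have hvert : ∀ j, ∃ q ∈ W, ‖V j - q‖ ≤ (8 + 4 * R) * s := by
    intro j
    obtain ⟨p, hp, hp2⟩ := exists_near_supp hW (n j) (ε := s ^ 2) (by positivity)
    obtain ⟨p', hp', hp2'⟩ := exists_near_supp hW (n (j + 1)) (ε := s ^ 2) (by positivity)
    set a := (starRingEnd ℂ (n j)) * (V j - p) with ha
    set a' := (starRingEnd ℂ (n j)) * (V j - p') with ha'
    have hrot : ∀ y : ℂ, ((starRingEnd ℂ (n (j + 1))) * y).re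
        = c * ((starRingEnd ℂ (n j)) * y).re + s * ((starRingEnd ℂ (n j)) * y).im := by
      intro y
      rw [hnsucc, map_mul, hcu, mul_comm (starRingEnd ℂ (n j)), mul_assoc]
      generalize (starRingEnd ℂ (n j)) * y = b
      simp
    have b1 := le_supp hR (n j) hp
    have b2 := le_supp hR (n j) hp'
    have b3 := le_supp hR (n (j + 1)) hp
    have b4 := le_supp hR (n (j + 1)) hp'
    have e1 := hre1 j
    have e2 := hre2 j
    simp only [hH] at e1 e2
    have f1 : a.re = supp W (n j) + s ^ 2 - ((starRingEnd ℂ (n j)) * p).re := by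
      rw [ha, mul_sub, Complex.sub_re, e1]
    have f2 : a'.re = supp W (n j) + s ^ 2 - ((starRingEnd ℂ (n j)) * p').re := by
      rw [ha', mul_sub, Complex.sub_re, e1]
    have f3 : c * a.re + s * a.im
        = supp W (n (j + 1)) + s ^ 2 - ((starRingEnd ℂ (n (j + 1))) * p).re := by
      rw [ha, ← hrot, mul_sub, Complex.sub_re, e2]
    have f4 : c * a'.re + s * a'.im
        = supp W (n (j + 1)) + s ^ 2 - ((starRingEnd ℂ (n (j + 1))) * p').re := by
      rw [ha', ← hrot, mul_sub, Complex.sub_re, e2]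
    have f5 : a.im - a'.im ≤ 2 * R := by
      have g1 : a - a' = (starRingEnd ℂ (n j)) * (p' - p) := by rw [ha, ha']; ring
      rw [← Complex.sub_im, g1]
      refine (Complex.im_le_norm _).trans ?_
      rw [norm_mul, Complex.norm_conj, hnn, one_mul]
      have := norm_sub_le p' p
      linarith [hR p hp, hR p' hp']
    obtain ⟨t, ht, hb⟩ := real_vertex a.re a.im a'.re a'.im c s R hc hc1.le hs hs1 hR0
      (by linarith) (by linarith) (by linarith) (by linarith) (by linarith) f5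
    refine ⟨(1 - t) • p + t • p', hconv hp hp' (by linarith [ht.2]) ht.1 (by ring), ?_⟩
    have g2 : (starRingEnd ℂ (n j)) * (V j - ((1 - t) • p + t • p'))
        = ((1 - t : ℝ) : ℂ) * a + (t : ℂ) * a' := by
      rw [ha, ha']
      simp only [Complex.real_smul]
      push_cast
      ring
    have g3 : ‖V j - ((1 - t) • p + t • p')‖ = ‖((1 - t : ℝ) : ℂ) * a + (t : ℂ) * a'‖ := by
      rw [← g2, norm_mul, Complex.norm_conj, hnn, one_mul]
    rw [g3]
    refine (Complex.norm_le_abs_re_add_abs_im _).trans ?_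
    simp only [Complex.add_re, Complex.add_im, Complex.re_ofReal_mul, Complex.im_ofReal_mul]
    exact hb
  refine ⟨γ, s ^ 2, by positivity, fun j _ => ⟨n (j + 1), l j, hnn _, (hlpos j).le, hwt j,
    fun t _ z hz => ?_⟩, ⟨0, hN, ?_⟩, ?_⟩
  · have e1 : γ.pt j t = V j + t * (n (j + 1) * ((l j : ℂ) * Complex.I)) := by
      rw [← hdiff]; rfl
    have e2 : (starRingEnd ℂ (n (j + 1))) * (γ.pt j t - z)
        = (starRingEnd ℂ (n (j + 1))) * V j + ((t * l j : ℝ) : ℂ) * Complex.I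
          - (starRingEnd ℂ (n (j + 1))) * z := by
      rw [e1]
      push_cast
      linear_combination ((t : ℂ) * l j * Complex.I) * hnc (j + 1)
    rw [e2, Complex.sub_re, Complex.add_re, hre2, Complex.re_ofReal_mul, Complex.I_re]
    have := le_supp hR (n (j + 1)) hz
    simp only [hH]
    linarith
  · rw [hwt]
    refine mul_ne_zero (by exact_mod_cast (hlpos 0).ne') ?_
    rw [← norm_ne_zero_iff, hnn]; exact one_ne_zero
  · rintro _ ⟨j, -, t, ht, rfl⟩
    obtain ⟨q, hq, hq2⟩ := hvert j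
    obtain ⟨q', hq', hq2'⟩ := hvert (j + 1)
    refine ⟨(1 - t) • q + t • q', hconv hq hq' (by linarith [ht.2]) ht.1 (by ring), ?_⟩
    have e1 : γ.pt j t - ((1 - t) • q + t • q')
        = (1 - t) • (V j - q) + t • (V (j + 1) - q') := by
      show V j + t * (V (j + 1) - V j) - _ = _
      simp only [Complex.real_smul]
      push_cast
      ring
    rw [e1]
    refine (norm_add_le _ _).trans ?_
    rw [norm_smul, norm_smul, Real.norm_eq_abs, Real.norm_eq_abs, abs_of_nonneg ht.1,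
      abs_of_nonneg (by linarith [ht.2])]
    have h1 := mul_le_mul_of_nonneg_left hq2 (sub_nonneg.mpr ht.2)
    have h2 := mul_le_mul_of_nonneg_left hq2' ht.1
    linarith

theorem exists_polygon (W : Set ℂ) (hW : W.Nonempty) (hconv : Convex ℝ W) (R : ℝ)
    (hR : ∀ z ∈ W, ‖z‖ ≤ R) (η : ℝ) (hη : 0 < η) :
    ∃ (γ : Contour) (ε : ℝ), 0 < ε ∧
      (∀ j < γ.N, ∃ (n : ℂ) (l : ℝ), ‖n‖ = 1 ∧ 0 ≤ l ∧ γ.wt j = l * n ∧
        ∀ t ∈ Icc (0 : ℝ) 1, ∀ z ∈ W, ε ≤ ((starRingEnd ℂ n) * (γ.pt j t - z)).re) ∧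
      (∃ j < γ.N, γ.wt j ≠ 0) ∧ ∀ σ ∈ γ.trace, ∃ z ∈ W, ‖σ - z‖ ≤ η := by
  have hR0 : 0 ≤ R := by
    obtain ⟨z, hz⟩ := hW
    exact (norm_nonneg z).trans (hR z hz)
  obtain ⟨N, hN⟩ := exists_nat_gt (max 6 ((8 + 4 * R) * (2 * Real.pi) / η))
  have hN6 : (6 : ℝ) < N := lt_of_le_of_lt (le_max_left _ _) hN
  have hN2 : (8 + 4 * R) * (2 * Real.pi) / η < N := lt_of_le_of_lt (le_max_right _ _) hN
  have hNpos : (0 : ℝ) < N := by linarith
  set Δ : ℝ := 2 * Real.pi / N with hΔ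
  have hΔ0 : 0 < Δ := by have := Real.pi_pos; positivity
  have hΔ1 : Δ ≤ Real.pi / 3 := by
    rw [hΔ, div_le_div_iff₀ hNpos (by norm_num)]
    nlinarith [Real.pi_pos]
  have hcos : 1 / 2 ≤ Real.cos Δ := by
    rw [← Real.cos_pi_div_three]
    exact Real.cos_le_cos_of_nonneg_of_le_pi hΔ0.le (by linarith [Real.pi_pos]) hΔ1
  have hsin : 0 < Real.sin Δ := Real.sin_pos_of_pos_of_lt_pi hΔ0 (by linarith [Real.pi_pos])
  have hcs : Real.cos Δ ^ 2 + Real.sin Δ ^ 2 = 1 := Real.cos_sq_add_sin_sq Δ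
  have hcos1 : Real.cos Δ < 1 := by nlinarith [Real.cos_le_one Δ]
  have hu : ((Real.cos Δ : ℂ) + Real.sin Δ * Complex.I) ^ N = 1 := by
    rw [Complex.ofReal_cos, Complex.ofReal_sin, ← Complex.exp_mul_I, ← Complex.exp_nat_mul]
    have : (N : ℂ) * ((Δ : ℂ) * Complex.I) = 2 * Real.pi * Complex.I := by
      rw [hΔ]
      have : (N : ℂ) ≠ 0 := by exact_mod_cast hNpos.ne'
      push_cast
      field_simp
    rw [this, Complex.exp_two_pi_mul_I]
  obtain ⟨γ, ε, h1, h2, h3, h4⟩ := exists_polygon_aux W hW hconv R hR _ _ hcos hcos1 hsin hcs N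
    (by exact_mod_cast hNpos) hu
  refine ⟨γ, ε, h1, h2, h3, fun σ hσ => ?_⟩
  obtain ⟨z, hz, hb⟩ := h4 σ hσ
  refine ⟨z, hz, hb.trans ?_⟩
  have h5 : Real.sin Δ ≤ Δ := Real.sin_le hΔ0.le
  have h6 : (8 + 4 * R) * Δ ≤ η := by
    rw [div_lt_iff₀ hη] at hN2
    rw [hΔ, ← mul_div_assoc, div_le_iff₀ hNpos]
    linarith
  exact (mul_le_mul_of_nonneg_left h5 (by positivity)).trans h6

end Vale.Agent.P123
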