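import Mathlib

/-!
The Toeplitz-Hausdorff theorem: the numerical range is convex.
-/

namespace Vale.Agent.P123

open scoped InnerProductSpace

variable {H : Type*} [NormedAddCommGroup H] [InnerProductSpace ℂ H]

theorem exists_unit_im_zero (α β : ℂ) :
    ∃ l : ℂ, ‖l‖ = 1 ∧ (l * α + (starRingEnd ℂ l) * β).im = 0 := by
  by_cases h : α - (starRingEnd ℂ) β = 0
  · refine ⟨1, by simp, ?_⟩
    have : α = (starRingEnd ℂ) β := sub_eq_zero.mp h
    rw [this]; simp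
  · set γ := α - (starRingEnd ℂ) β with hγ
    have hn : ‖γ‖ ≠ 0 := norm_ne_zero_iff.mpr h
    refine ⟨(starRingEnd ℂ γ) / (‖γ‖ : ℂ), ?_, ?_⟩
    · rw [norm_div]; simp [hn]
    · have h1 : ∀ l : ℂ, (l * α + (starRingEnd ℂ l) * β).im = (l * γ).im := by
        intro l; simp [hγ]; ring
      rw [h1, div_mul_eq_mul_div, Complex.conj_mul', ← Complex.ofReal_pow, ← Complex.ofReal_div]
      exact Complex.ofReal_im _

theorem unit_interval_attained (B : H →L[ℂ] H) (x y : H) (hx : ‖x‖ = 1) (hy : ‖y‖ = 1)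
    (h0 : ⟪x, B x⟫_ℂ = 0) (h1 : ⟪y, B y⟫_ℂ = 1) (t : ℝ) (ht0 : 0 ≤ t) (ht1 : t ≤ 1) :
    ∃ z : H, ‖z‖ = 1 ∧ ⟪z, B z⟫_ℂ = (t : ℂ) := by
  obtain ⟨l, hl, him⟩ := exists_unit_im_zero ⟪x, B y⟫_ℂ ⟪y, B x⟫_ℂ
  set y' : H := l • y with hy'
  have hll : (starRingEnd ℂ l) * l = 1 := by
    rw [Complex.conj_mul', hl]; simp
  have h1' : ⟪y', B y'⟫_ℂ = 1 := by
    rw [hy', map_smul, inner_smul_left, inner_smul_right, h1, mul_one, hll]
  set ρ : ℝ := (l * ⟪x, B y⟫_ℂ + (starRingEnd ℂ l) * ⟪y, B x⟫_ℂ).re with hρ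
  have hcross : ⟪x, B y'⟫_ℂ + ⟪y', B x⟫_ℂ = (ρ : ℂ) := by
    rw [hy', map_smul, inner_smul_left, inner_smul_right]
    apply Complex.ext
    · simp [hρ]
    · rw [him]; simp
  set z : ℝ → H := fun s => ((1 - s : ℝ) : ℂ) • x + (s : ℂ) • y' with hz
  have hzB : ∀ s : ℝ, ⟪z s, B (z s)⟫_ℂ = ((s ^ 2 + s * (1 - s) * ρ : ℝ) : ℂ) := by
    intro s
    simp only [hz, map_add, map_smul, inner_add_left, inner_add_right, inner_smul_left,
      inner_smul_right, h0, h1', Complex.conj_ofReal]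
    push_cast
    linear_combination (s * (1 - s) : ℂ) * hcross
  have hz0 : ∀ s : ℝ, z s ≠ 0 := by
    intro s hs
    by_cases hs0 : s = 0
    · subst hs0
      simp only [hz, sub_zero, Complex.ofReal_one, one_smul, Complex.ofReal_zero, zero_smul,
        add_zero] at hs
      rw [hs] at hx; simp at hx
    · have h2 : (s : ℂ) • y' = -(((1 - s : ℝ) : ℂ) • x) := eq_neg_of_add_eq_zero_right hs
      have h3 : ⟪(s : ℂ) • y', B ((s : ℂ) • y')⟫_ℂ = 0 := by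
        rw [h2]; simp [map_smul, inner_smul_left, inner_smul_right, h0]
      rw [map_smul, inner_smul_left, inner_smul_right, h1'] at h3
      simp at h3
      exact hs0 h3
  have hcont : Continuous (fun s : ℝ => (s ^ 2 + s * (1 - s) * ρ) / ‖z s‖ ^ 2) := by
    refine Continuous.div (by fun_prop) ?_ (fun s => pow_ne_zero 2 (norm_ne_zero_iff.mpr (hz0 s)))
    have : Continuous z := by simp only [hz]; fun_prop
    fun_prop
  have hy'n : ‖y'‖ = 1 := by rw [hy', norm_smul, hl, hy, mul_one]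
  have hivt := intermediate_value_Icc (zero_le_one' ℝ) hcont.continuousOn
  have hmem : t ∈ Set.Icc ((0 ^ 2 + 0 * (1 - 0) * ρ) / ‖z 0‖ ^ 2)
      ((1 ^ 2 + 1 * (1 - 1) * ρ) / ‖z 1‖ ^ 2) := by
    simp [hz, hy'n, ht0, ht1]
  obtain ⟨s, -, hs⟩ := hivt hmem
  have hn : 0 < ‖z s‖ := norm_pos_iff.mpr (hz0 s)
  refine ⟨((‖z s‖⁻¹ : ℝ) : ℂ) • z s, ?_, ?_⟩
  · rw [norm_smul]; simp [hn.ne']
  · rw [map_smul, inner_smul_left, inner_smul_right, hzB, Complex.conj_ofReal, ← hs]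
    push_cast
    field_simp

theorem toeplitz_hausdorff (A : H →L[ℂ] H) :
    Convex ℝ {z : ℂ | ∃ x : H, ‖x‖ = 1 ∧ z = ⟪x, A x⟫_ℂ} := by
  rintro _ ⟨x, hx, rfl⟩ _ ⟨y, hy, rfl⟩ a b ha hb hab
  set p := ⟪x, A x⟫_ℂ with hp
  set q := ⟪y, A y⟫_ℂ with hq
  have ha' : a = 1 - b := by linarith
  by_cases hpq : p = q
  · refine ⟨x, hx, ?_⟩
    rw [← hpq, ← add_smul, hab, one_smul]
  · have hne : q - p ≠ 0 := sub_ne_zero.mpr (Ne.symm hpq)
    set B : H →L[ℂ] H := (q - p)⁻¹ • (A - p • (1 : H →L[ℂ] H)) with hB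
    have hBv : ∀ v : H, ‖v‖ = 1 → ⟪v, B v⟫_ℂ = (q - p)⁻¹ * (⟪v, A v⟫_ℂ - p) := by
      intro v hv
      have h1 : B v = (q - p)⁻¹ • (A v - p • v) := rfl
      rw [h1, inner_smul_right, inner_sub_right, inner_smul_right, inner_self_eq_norm_sq_to_K, hv]
      simp
    obtain ⟨z, hz, hzB⟩ := unit_interval_attained B x y hx hy (by rw [hBv x hx, ← hp]; simp)
      (by rw [hBv y hy, ← hq]; exact inv_mul_cancel₀ hne) b hb (by linarith)
    refine ⟨z, hz, ?_⟩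
    rw [hBv z hz] at hzB
    have h2 : ⟪z, A z⟫_ℂ - p = (q - p) * b := by
      rw [← hzB]; field_simp
    rw [ha']
    simp only [Complex.real_smul]
    push_cast
    linear_combination -h2

end Vale.Agent.P123
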