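import Mathlib
import Vale.Agent.P123.Layer
import Vale.Agent.P123.Polygon
import Vale.Agent.P123.TH

/-!
Crouzeix's inequality with constant two.
-/

namespace Vale.Agent.P123

open scoped InnerProductSpace
open Set

variable {H : Type*} [NormedAddCommGroup H] [InnerProductSpace ℂ H]

theorem crouzeix_bound [CompleteSpace H] [Nontrivial H] (A : H →L[ℂ] H) (P : Polynomial ℂ)
    (S : ℝ) (hS : ∀ x : H, ‖x‖ = 1 → ‖P.eval ⟪x, A x⟫_ℂ‖ ≤ S) :
    ‖Polynomial.aeval A P‖ ≤ 2 * S := by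
  obtain ⟨x₀, hx₀⟩ : ∃ x : H, ‖x‖ = 1 := exists_norm_eq H zero_le_one
  have hS0 : 0 ≤ S := (norm_nonneg _).trans (hS x₀ hx₀)
  set W : Set ℂ := {z : ℂ | ∃ x : H, ‖x‖ = 1 ∧ z = ⟪x, A x⟫_ℂ} with hW
  have hR : ∀ z ∈ W, ‖z‖ ≤ ‖A‖ := by
    rintro _ ⟨x, hx, rfl⟩
    refine (norm_inner_le_norm _ _).trans ?_
    have := A.le_opNorm x
    rw [hx] at this ⊢
    linarith
  refine le_of_forall_pos_le_add fun δ hδ => ?_
  have huc : UniformContinuousOn (fun z => P.eval z) (Metric.closedBall (0 : ℂ) (‖A‖ + 1)) :=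
    (isCompact_closedBall _ _).uniformContinuousOn_of_continuous P.continuous.continuousOn
  obtain ⟨η, hη, hη2⟩ := Metric.uniformContinuousOn_iff_le.mp huc (δ / 2) (by positivity)
  obtain ⟨γ, ε, hε, h2, h3, h4⟩ := exists_polygon W ⟨_, x₀, hx₀, rfl⟩ (toeplitz_hausdorff A) _ hR
    (min η 1) (by positivity)
  have hsur : Surrounds γ A ε := by
    intro j hj
    obtain ⟨n, l, hn, hl, hw, hs⟩ := h2 j hj
    exact ⟨n, l, hn, hl, hw, fun t ht => sep_of_unit _ _ _ _ fun x hx => hs t ht _ ⟨x, hx, rfl⟩⟩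
  have hpos : 0 < S + δ / 2 := by positivity
  have := norm_aeval_le_two hsur hε x₀ hx₀ h3 (Polynomial.C (((S + δ / 2)⁻¹ : ℝ) : ℂ) * P) ?_
  · rw [map_mul, Polynomial.aeval_C, Algebra.algebraMap_eq_smul_one, smul_mul_assoc, one_mul,
      norm_smul, Complex.norm_real, Real.norm_eq_abs, abs_of_pos (inv_pos.mpr hpos),
      inv_mul_le_iff₀ hpos] at this
    linarith
  · intro σ hσ
    obtain ⟨z, hz, hb⟩ := h4 σ hσ
    have hzn := hR z hz
    have h5 : dist (P.eval σ) (P.eval z) ≤ δ / 2 := by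
      refine hη2 σ ?_ z ?_ ?_
      · rw [mem_closedBall_zero_iff]
        have := norm_add_le (σ - z) z
        rw [sub_add_cancel] at this
        linarith [min_le_right η 1]
      · rw [mem_closedBall_zero_iff]; linarith
      · rw [dist_eq_norm]; exact hb.trans (min_le_left _ _)
    obtain ⟨x, hx, rfl⟩ := hz
    have h6 := hS x hx
    rw [dist_eq_norm] at h5
    have h7 := norm_add_le (P.eval σ - P.eval ⟪x, A x⟫_ℂ) (P.eval ⟪x, A x⟫_ℂ)
    rw [sub_add_cancel] at h7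
    rw [Polynomial.eval_mul, Polynomial.eval_C, norm_mul, Complex.norm_real, Real.norm_eq_abs,
      abs_of_pos (inv_pos.mpr hpos), inv_mul_le_iff₀ hpos]
    linarith

theorem bdd_range (A : H →L[ℂ] H) (P : Polynomial ℂ) :
    BddAbove ((fun z => ‖P.eval z‖) '' {z : ℂ | ∃ x : H, ‖x‖ = 1 ∧ z = ⟪x, A x⟫_ℂ}) := by
  have hc : ContinuousOn (fun z => ‖P.eval z‖) (Metric.closedBall (0 : ℂ) ‖A‖) :=
    P.continuous.norm.continuousOn
  refine ((isCompact_closedBall _ _).bddAbove_image hc).mono (image_mono ?_)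
  rintro _ ⟨x, hx, rfl⟩
  rw [mem_closedBall_zero_iff]
  refine (norm_inner_le_norm _ _).trans ?_
  have := A.le_opNorm x
  rw [hx] at this ⊢
  linarith

theorem exists_extremal.{u} : ∃ (A : EuclideanSpace ℂ (ULift.{u} (Fin 2)) →L[ℂ]
    EuclideanSpace ℂ (ULift.{u} (Fin 2))), 1 ≤ ‖A‖ ∧
      ∀ x, ‖x‖ = 1 → ‖⟪x, A x⟫_ℂ‖ ≤ 1 / 2 := by
  classical
  set e0 : EuclideanSpace ℂ (ULift.{u} (Fin 2)) := EuclideanSpace.single ⟨0⟩ 1 with he0
  set e1 : EuclideanSpace ℂ (ULift.{u} (Fin 2)) := EuclideanSpace.single ⟨1⟩ 1 with he1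
  have h0 : ‖e0‖ = 1 := by simp [he0]
  have h1 : ‖e1‖ = 1 := by simp [he1]
  refine ⟨(innerSL ℂ e1).smulRight e0, ?_, fun x hx => ?_⟩
  · have := ((innerSL ℂ e1).smulRight e0).le_opNorm e1
    rw [ContinuousLinearMap.smulRight_apply, innerSL_apply_apply, inner_self_eq_norm_sq_to_K,
      norm_smul, h0, h1] at this
    simpa using this
  · rw [ContinuousLinearMap.smulRight_apply, innerSL_apply_apply, inner_smul_right, norm_mul,
      he0, he1, EuclideanSpace.inner_single_left, EuclideanSpace.inner_single_right]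
    have h2 := EuclideanSpace.norm_sq_eq x
    rw [hx, ← (Equiv.ulift.symm).sum_comp, Fin.sum_univ_two] at h2
    simp only [map_one, one_mul, RCLike.norm_conj]
    have e0' : (Equiv.ulift.symm (0 : Fin 2) : ULift.{u} (Fin 2)) = ⟨0⟩ := rfl
    have e1' : (Equiv.ulift.symm (1 : Fin 2) : ULift.{u} (Fin 2)) = ⟨1⟩ := rfl
    rw [e0', e1'] at h2
    nlinarith [sq_nonneg (‖x.ofLp ⟨0⟩‖ - ‖x.ofLp ⟨1⟩‖)]

end Vale.Agent.P123
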